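import Vale.Agent.P237.Petty.Cor.Mid36.Mean

/-!
# P237: the cell between three and six over the dimension

For `p + 2 ≥ 100` the bounds of the correlation excess hold for every value in
`[3 / (p + 2), 6 / (p + 2)]`.
-/

namespace Vale.Agent.P237.Petty.Cor.Mid36

open MeasureTheory Set intervalIntegral
open Ident (half rate)
open Huge (moment)
open Vale.Agent.P100.Bernstein

variable {p : ℕ}

/-- The remainder. -/
noncomputable def restR (p : ℕ) (s : ℝ) : ℝ :=
  (1 / ((p : ℝ) + 1)) ^ 2 * xR.eval (pt p s) +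
    380 * ((p : ℝ) + 1) * (5 / 2) ^ 32 * (s ^ 64 / (1 - s ^ 2) ^ 2)

theorem rest_pointwise (hp : 98 ≤ p) {ell s t a r q : ℝ} (h : FlatState p ell s t a r q)
    (h0 : 0 ≤ ell) (hell : ell ≤ 6 / ((p : ℝ) + 1)) :
    ell * (wS p (arc s) - massF p s) - restR p s ≤
      cancelExpr p (gamC p) (nuC p) ell (fun s t => s + 1 * (s - t)) (fun _ _ => 1 + 1)
        (fun _ _ => -1) (quadPot (potK p) (potB p)) (quadPotS (potK p) (potK' p) (potB p) (potB' p))
        (quadPotT (potK p) (potB p)) s t a r := by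
  rw [restR]
  have hs := h.state.s_mem
  have hc : 0 < 1 - s ^ 2 := by nlinarith [hs.1, hs.2]
  rcases le_total (s ^ 2) (2 / 5) with h1 | h1
  · have := bulk_pointwise hp h h0 hell h1
    have : 0 ≤ 380 * ((p : ℝ) + 1) * (5 / 2) ^ 32 * (s ^ 64 / (1 - s ^ 2) ^ 2) := by
      have := hs.1
      positivity
    linarith
  · have := tail_pointwise hp h h0 hell h1
    have h3 := mul_nonneg (sq_nonneg (1 / ((p : ℝ) + 1)))
      (xR_nonneg hp (Ioo_subset_Icc_self hs))
    have h5 : 0 ≤ ell * massF p s := by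
      refine mul_nonneg h0 ?_
      have := muSum_nonneg p s
      rw [massF]
      positivity
    have h4 : 380 * ((p : ℝ) + 1) / (1 - s ^ 2) ^ 2 ≤
        380 * ((p : ℝ) + 1) * (5 / 2) ^ 32 * (s ^ 64 / (1 - s ^ 2) ^ 2) := by
      rw [show 380 * ((p : ℝ) + 1) * (5 / 2) ^ 32 * (s ^ 64 / (1 - s ^ 2) ^ 2) =
        380 * ((p : ℝ) + 1) / (1 - s ^ 2) ^ 2 * (5 / 2 * s ^ 2) ^ 32 by
          rw [mul_pow, ← pow_mul]; ring]
      exact le_mul_of_one_le_right (by positivity) (one_le_pow₀ (by linarith))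
    linarith

theorem restR_arc (hp : 4 ≤ p) {s : ℝ} (hs : s ∈ Icc (0 : ℝ) 1) :
    arc s ^ (p + 1) * restR p s =
      (1 / ((p : ℝ) + 1)) ^ 2 * (arc s ^ (p + 1) * xR.eval (pt p s)) +
        380 * ((p : ℝ) + 1) * (5 / 2) ^ 32 * (arc s ^ (p - 3) * s ^ (2 * 32)) := by
  have hc2 : arc s ^ 2 = 1 - s ^ 2 := Real.sq_sqrt (by nlinarith [hs.1, hs.2])
  have h : arc s ^ (p + 1) * (s ^ 64 / (1 - s ^ 2) ^ 2) = arc s ^ (p - 3) * s ^ (2 * 32) := by
    rcases eq_or_lt_of_le hs.2 with h1 | h1
    · subst h1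
      simp [arc, zero_pow (show p - 3 ≠ 0 by omega)]
    · have : (1 - s ^ 2) ≠ 0 := by nlinarith [hs.1]
      rw [show p + 1 = (p - 3) + 4 by omega, pow_add, show (arc s) ^ 4 = (arc s ^ 2) ^ 2 by ring,
        hc2]
      field_simp
  rw [restR, ← h]
  ring

/-- The mean of the function against `ell`. -/
theorem mass_mean (hp : 98 ≤ p) :
    ∫ s in (0 : ℝ)..1, arc s ^ (p + 1) * massF p s ≤
      1 / ((p : ℝ) + 1) * (1 + 12 * (1 / ((p : ℝ) + 1)) ^ 2) *
        (121 / 25 * (xHn1.eval [0, 1 / ((p : ℝ) + 1), 0] / xHd1.eval [0, 1 / ((p : ℝ) + 1), 0]) +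
          487 / 100 *
            (xHn2.eval [0, 1 / ((p : ℝ) + 1), 0] / xHd2.eval [0, 1 / ((p : ℝ) + 1), 0])) *
        half (p + 1) := by
  have hpp : (98 : ℝ) ≤ p := by exact_mod_cast hp
  have hm : (0 : ℝ) < (p : ℝ) + 1 := by positivity
  have hc : ∀ y0, IntervalIntegrable (fun s => arc s ^ (p + 1) * hinge p y0 s) volume 0 1 :=
    fun y0 => ((continuous_arc.pow _).mul (continuous_hinge p y0)).intervalIntegrable _ _
  have e : ∀ s, arc s ^ (p + 1) * massF p s =
      1 / ((p : ℝ) + 1) * (1 + 12 * (1 / ((p : ℝ) + 1)) ^ 2) *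
        (121 / 25 * (arc s ^ (p + 1) * hinge p (99 / 20) s) +
          487 / 100 * (arc s ^ (p + 1) * hinge p (399 / 50) s)) := fun s => by
    rw [massF, muSum]; ring
  rw [intervalIntegral.integral_congr fun s _ => e s, intervalIntegral.integral_const_mul,
    intervalIntegral.integral_add ((hc _).const_mul _) ((hc _).const_mul _),
    intervalIntegral.integral_const_mul, intervalIntegral.integral_const_mul]
  have e1 : Real.exp (-(99 / 20 / 2)) ≤ 842 / 10000 := by
    rw [Real.exp_neg, inv_le_comm₀ (Real.exp_pos _) (by norm_num)]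
    refine le_trans ?_ (Real.sum_le_exp_of_nonneg (by norm_num) 14)
    simp only [Finset.sum_range_succ, Finset.sum_range_zero]
    norm_num [Nat.factorial]
  have e2 : Real.exp (-(399 / 50 / 2)) ≤ 1851 / 100000 := by
    rw [Real.exp_neg, inv_le_comm₀ (Real.exp_pos _) (by norm_num)]
    refine le_trans ?_ (Real.sum_le_exp_of_nonneg (by norm_num) 20)
    simp only [Finset.sum_range_succ, Finset.sum_range_zero]
    norm_num [Nat.factorial]
  have h1 := hinge_mean_le (p := p) (y0 := 99 / 20) (σ := 22249 / 10000) (by norm_num)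
    (by linarith) (by norm_num) (by norm_num) e1
  have h2 := hinge_mean_le (p := p) (y0 := 399 / 50) (σ := 2825 / 1000) (by norm_num)
    (by linarith) (by norm_num) (by norm_num) e2
  rw [mul_assoc _ _ (half (p + 1)), add_mul, mul_assoc (121 / 25 : ℝ), mul_assoc (487 / 100 : ℝ)]
  refine mul_le_mul_of_nonneg_left (add_le_add (mul_le_mul_of_nonneg_left (h1.trans_eq ?_)
    (by norm_num)) (mul_le_mul_of_nonneg_left (h2.trans_eq ?_) (by norm_num))) (by positivity)
  · simp only [xHn1, xHd1, Expr.eval_sub, Expr.eval_mul, Expr.eval_add, Expr.eval_frac,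
      Expr.eval_ofNat, Expr.eval_var, List.getD_cons_zero, List.getD_cons_succ]
    push_cast
    rw [show (p : ℝ) + 4 = ((p : ℝ) + 1) + 3 by ring]
    field_simp
    ring
  · simp only [xHn2, xHd2, Expr.eval_sub, Expr.eval_mul, Expr.eval_add, Expr.eval_frac,
      Expr.eval_ofNat, Expr.eval_var, List.getD_cons_zero, List.getD_cons_succ]
    push_cast
    rw [show (p : ℝ) + 4 = ((p : ℝ) + 1) + 3 by ring]
    field_simp
    ring

/-- The mean of the remainder, with the mass. -/
theorem rest_mean (hp : 98 ≤ p) :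
    ∫ s in (0 : ℝ)..1, arc s ^ (p + 1) * restR p s ≤
      3 / ((p : ℝ) + 2) * (half (p + 1) * Ident.muMin p / ((p : ℝ) + 2) -
        ∫ s in (0 : ℝ)..1, arc s ^ (p + 1) * massF p s) := by
  obtain ⟨-, he, he', -⟩ := pt_mem hp 0
  have hH := Ident.half_pos (p + 1)
  have hT := tail_mean_le hp
  have hR := integral_xR hp
  have hM := mass_mean hp
  have hmu := (muMin_bounds hp).1
  have hC := onBox_nonneg cert_mean 0 (y := 0) (e := 1 / ((p : ℝ) + 1)) (by norm_num)
    (by norm_num) he.le he'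
  have i1 : IntervalIntegrable (fun s => (1 / ((p : ℝ) + 1)) ^ 2 *
      (arc s ^ (p + 1) * xR.eval (pt p s))) volume 0 1 := by
    simp only [xR_pt]
    exact (continuous_const.mul ((continuous_arc.pow _).mul (continuous_xR p))).intervalIntegrable _ _
  rw [intervalIntegral.integral_congr (g := fun s => (1 / ((p : ℝ) + 1)) ^ 2 *
      (arc s ^ (p + 1) * xR.eval (pt p s)) +
        380 * ((p : ℝ) + 1) * (5 / 2) ^ 32 * (arc s ^ (p - 3) * s ^ (2 * 32)))
      (by rw [uIcc_of_le zero_le_one]; exact fun s hs => restR_arc (by omega) hs),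
    intervalIntegral.integral_add i1 ((Huge.integrable_moment _ _ _ _).const_mul _),
    intervalIntegral.integral_const_mul, intervalIntegral.integral_const_mul,
    show (∫ s in (0 : ℝ)..1, arc s ^ (p - 3) * s ^ (2 * 32)) = moment (p - 3) 32 from rfl]
  simp only [xMean, Expr.eval_sub, Expr.eval_mul, Expr.eval_add, Expr.eval_pow, Expr.eval_frac,
    Expr.eval_var, Expr.eval_ofNat, List.getD_cons_zero, List.getD_cons_succ] at hC
  push_cast at hC
  have hd1 : 0 < xHd1.eval [0, 1 / ((p : ℝ) + 1), 0] := by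
    simp only [xHd1, Expr.eval_mul, Expr.eval_add, Expr.eval_frac, Expr.eval_ofNat, Expr.eval_var,
      List.getD_cons_zero, List.getD_cons_succ]
    positivity
  have hd2 : 0 < xHd2.eval [0, 1 / ((p : ℝ) + 1), 0] := by
    simp only [xHd2, Expr.eval_mul, Expr.eval_add, Expr.eval_frac, Expr.eval_ofNat, Expr.eval_var,
      List.getD_cons_zero, List.getD_cons_succ]
    positivity
  have hP : 0 < xProd.eval [0, 1 / ((p : ℝ) + 1), 0] := by
    simp only [xProd, Expr.eval_mul, Expr.eval_add, Expr.eval_ofNat, Expr.eval_var,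
      List.getD_cons_zero, List.getD_cons_succ]
    positivity
  rw [show (288 : ℝ) / 100 / ((p : ℝ) + 1) = 288 / 100 * (1 / ((p : ℝ) + 1)) by ring] at hmu
  rw [show (1 : ℝ) / 100 / ((p : ℝ) + 1) ^ 2 = 1 / 100 * (1 / ((p : ℝ) + 1)) ^ 2 by
    field_simp] at hT
  have e2 : 1 / ((p : ℝ) + 2) = 1 / ((p : ℝ) + 1) / (1 + 1 / ((p : ℝ) + 1)) := by
    rw [show (p : ℝ) + 2 = ((p : ℝ) + 1) + 1 by ring]; field_simp
  rw [div_eq_mul_one_div (3 : ℝ), div_eq_mul_one_div (half (p + 1) * Ident.muMin p), e2]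
  generalize xHd1.eval [0, 1 / ((p : ℝ) + 1), 0] = D1 at hC hd1 hM
  generalize xHd2.eval [0, 1 / ((p : ℝ) + 1), 0] = D2 at hC hd2 hM
  generalize xHn1.eval [0, 1 / ((p : ℝ) + 1), 0] = N1 at hC hM
  generalize xHn2.eval [0, 1 / ((p : ℝ) + 1), 0] = N2 at hC hM
  generalize xProd.eval [0, 1 / ((p : ℝ) + 1), 0] = P at hC hR hP
  generalize xHorner.eval [0, 1 / ((p : ℝ) + 1), 0] = HN at hC hR
  generalize (∫ s in (0 : ℝ)..1, arc s ^ (p + 1) * xR.eval (pt p s)) = IR at hR ⊢
  generalize (∫ s in (0 : ℝ)..1, arc s ^ (p + 1) * massF p s) = IM at hM ⊢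
  generalize moment (p - 3) 32 = MT at hT ⊢
  generalize 380 * ((p : ℝ) + 1) * (5 / 2) ^ 32 * MT = T at hT ⊢
  generalize 1 / ((p : ℝ) + 1) = e at *
  have hE : IR = HN * half (p + 1) / P := by rw [eq_div_iff hP.ne']; linarith
  subst hE
  have key : (1 + e) ^ 2 * HN / P + (1 + e) ^ 2 * (1 / 100) ≤
      3 * (3 / 4 - 288 / 100 * e) -
        3 * (1 + 12 * e ^ 2) * (1 + e) * (121 / 25 * (N1 / D1) + 487 / 100 * (N2 / D2)) := by
    have e3 : ∀ x, x / P + (1 + e) ^ 2 * (1 / 100) = (x + (1 + e) ^ 2 * (1 / 100) * P) / P := fun x => by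
      field_simp
    rw [e3, div_le_iff₀ hP, ← sub_nonneg]
    refine le_of_le_of_eq (div_nonneg hC (mul_pos hd1 hd2).le) ?_
    field_simp
    ring
  have h1e : 0 < 1 + e := by linarith
  have k1 := mul_le_mul_of_nonneg_left key
    (show 0 ≤ e ^ 2 / (1 + e) ^ 2 * half (p + 1) by positivity)
  have k2 := mul_le_mul_of_nonneg_left hM (show 0 ≤ 3 * (e / (1 + e)) by positivity)
  have k3 := mul_le_mul_of_nonneg_left hmu
    (show 0 ≤ 3 * (e / (1 + e)) ^ 2 * half (p + 1) by positivity)
  have e4 : e ^ 2 / (1 + e) ^ 2 * half (p + 1) * ((1 + e) ^ 2 * HN / P + (1 + e) ^ 2 * (1 / 100)) =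
      e ^ 2 * (HN * half (p + 1) / P) + 1 / 100 * e ^ 2 * half (p + 1) := by
    field_simp
  rw [e4] at k1
  have e5 : e ^ 2 / (1 + e) ^ 2 * half (p + 1) * (3 * (3 / 4 - 288 / 100 * e) -
      3 * (1 + 12 * e ^ 2) * (1 + e) * (121 / 25 * (N1 / D1) + 487 / 100 * (N2 / D2))) =
      3 * (e / (1 + e)) ^ 2 * half (p + 1) * (3 / 4 - 288 / 100 * e) -
        3 * (e / (1 + e)) * (e * (1 + 12 * e ^ 2) *
          (121 / 25 * (N1 / D1) + 487 / 100 * (N2 / D2)) * half (p + 1)) := by
    field_simp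
  rw [e5] at k1
  linarith

end Vale.Agent.P237.Petty.Cor.Mid36

namespace Vale.Agent.P237.Petty.Cor

open Mid36 in
/-- The cell between three and six over the dimension. -/
theorem corCell_mid36 {p : ℕ} (hp : 98 ≤ p) :
    CorCell p (3 / ((p : ℝ) + 2)) (6 / ((p : ℝ) + 2)) := by
  have hcR : ContinuousOn (fun s => arc s ^ (p + 1) * restR p s) (Set.Icc 0 1) :=
    ((continuous_const.mul ((continuous_arc.pow _).mul
      (show Continuous (fun s => xR.eval (pt p s)) by
        simp only [xR_pt]; exact continuous_xR p))).add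
      (continuous_const.mul ((continuous_arc.pow _).mul (continuous_pow _)))).continuousOn.congr
      fun s hs => restR_arc (by omega) hs
  have hcM : Continuous (massF p) := by
    unfold massF muSum
    have := continuous_hinge p (99 / 20)
    have := continuous_hinge p (399 / 50)
    fun_prop
  have hR0 : 0 ≤ ∫ s in (0 : ℝ)..1, arc s ^ (p + 1) * restR p s := by
    refine intervalIntegral.integral_nonneg zero_le_one fun s hs => ?_
    rw [restR_arc (by omega) hs]
    have := xR_nonneg hp hs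
    have := hs.1
    have : 0 ≤ arc s := Real.sqrt_nonneg _
    positivity
  refine corCell_of_bridge (p := p) (by omega) (gamC_pos p) (g := 1) (nu := nuC p)
    (M := massF p) (R := restR p) (B := fun s => -(arc s ^ (p + 1) * poleF p s))
    ?_ (fun s _ => hasDerivAt_potK p s) (fun s hs => hasDerivAt_potB p hs) ?_ ?_ ?_ ?_ hcR
    ?_ ?_ ?_
  · obtain ⟨h1, -⟩ := nuC_bounds hp
    have : 0 ≤ 1 / ((p : ℝ) + 1) := by positivity
    linarith
  · have := continuous_arc
    have := continuous_plF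
    exact ((continuous_arc.pow _).mul (by unfold potK; fun_prop)).continuousOn
  · have := continuous_phiF
    exact ((continuous_arc.pow _).mul (by unfold poleF; fun_prop)).neg.continuousOn
  · intro s hs
    have := hs.1.ne'
    rw [potB]
    field_simp
  · exact ((continuous_arc.pow _).mul hcM).continuousOn
  · have h := hR0.trans (rest_mean hp)
    have := nonneg_of_mul_nonneg_right h (by positivity)
    linarith
  · exact rest_mean hp
  · intro ell hl s t a r q h
    have h0 : 0 ≤ ell := le_trans (by positivity) hl.1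
    exact rest_pointwise hp h h0 (hl.2.trans (div_le_div_of_nonneg_left (by norm_num)
      (by positivity) (by linarith)))

end Vale.Agent.P237.Petty.Cor
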