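import Vale.Agent.P237.Petty.Cor.Mid36.Point
import Vale.Agent.P237.Petty.Cor.MidHigh.Tail

/-!
# P237: the cell between three and six over the dimension, beyond the bulk

For `2 / 5 ≤ s ^ 2` the cancelled cell is at least `ell wS - 380 m / (1 - s ^ 2) ^ 2`, whose mean
is below a hundredth of `1 / m ^ 2`.
-/

namespace Vale.Agent.P237.Petty.Cor.Mid36

open Set
open Ident (half rate)
open Huge (moment)
open MidHigh (half_le_one)

variable {p : ℕ}

/-- Beyond the bulk `v ≤ 2 m / c ^ 2`. -/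
theorem inv_rate_le_crude (hp : 98 ≤ p) {ell s t a r q : ℝ} (h : FlatState p ell s t a r q)
    (h0 : 0 ≤ ell) (hell : ell ≤ 6 / ((p : ℝ) + 1)) (hs : 2 / 5 ≤ s ^ 2) :
    1 / r ≤ 2 * ((p : ℝ) + 1) / (1 - s ^ 2) := by
  have hpp : (98 : ℝ) ≤ p := by exact_mod_cast hp
  obtain ⟨m, hm, hme⟩ : ∃ m : ℝ, 99 ≤ m ∧ (p : ℝ) + 1 = m := ⟨_, by linarith, rfl⟩
  have hsm := h.state.s_mem
  have hc := h.state.arc_pos'
  have hc2 : arc s ^ 2 = 1 - s ^ 2 := Real.sq_sqrt (by nlinarith [hsm.1, hsm.2])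
  have hz : 0 < 1 - s ^ 2 := hc2 ▸ pow_pos hc 2
  rw [hme] at hell ⊢
  have hE := exp_ell_le hm h0 hell
  have hE' : 1 + 619 / 100 / m ≤ 115 / 100 := by
    have : 619 / 100 / m ≤ 619 / 100 / 99 := by gcongr
    linarith
  have hT := circHigh_ge_sq (p := p) (Ioo_subset_Icc_self hsm)
  have hpos : 0 < arc s ^ (p + 3) * (s / (((p : ℝ) + 3) * s ^ 2 + 1)) := by
    have := hsm.1
    positivity
  refine (h.inv_rate_le_base_max ⟨le_rfl, hsm.1.le⟩).trans (max_le ?_ ?_)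
  · refine (hE.trans hE').trans ?_
    rw [le_div_iff₀ hz]
    nlinarith
  · have h1 : Lift.circLow p 0 = 0 := by simp [Lift.circLow]
    have h2 : Lift.circHigh p 0 ≤ 1 := by
      simpa [Lift.circHigh, half, arc] using half_le_one (p + 1)
    have h3 : 0 ≤ Lift.circHigh p 0 := intervalIntegral.integral_nonneg zero_le_one fun v _ =>
      pow_nonneg (Real.sqrt_nonneg _) _
    rw [h1, mul_zero, add_zero, show arc 0 = 1 by simp [arc], one_pow, one_mul]
    refine (div_le_div₀ (by positivity) (mul_le_mul (mul_le_mul_of_nonneg_right (hE.trans hE')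
      (pow_nonneg hc.le _)) h2 h3 (by positivity)) hpos hT).trans ?_
    rw [show arc s ^ (p + 3) = arc s ^ (p + 1) * (1 - s ^ 2) by rw [← hc2]; ring,
      show (p : ℝ) + 3 = m + 2 by linarith, div_le_div_iff₀ (mul_pos (mul_pos (pow_pos hc _) hz) (div_pos hsm.1 (by positivity))) hz]
    have hs0 : 63 / 100 ≤ s := by nlinarith [hsm.1]
    have hs1 : s ≤ 1 := hsm.2.le
    have key : 115 / 100 * ((m + 2) * s ^ 2 + 1) ≤ 2 * m * s := by
      nlinarith [mul_nonneg (show (0 : ℝ) ≤ m + 2 by linarith) (mul_nonneg hsm.1.le (sub_nonneg.2 hs1))]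
    have := mul_le_mul_of_nonneg_left key (mul_nonneg (pow_nonneg hc.le (p + 1)) hz.le)
    have hne : (m + 2) * s ^ 2 + 1 ≠ 0 := by positivity
    field_simp at this ⊢
    linarith

/-- The cut off of the pole part beyond the bulk. -/
theorem phiF_bounds {y : ℝ} (hy : 198 / 5 ≤ y) :
    198 / 5 ≤ phiF y ∧ phiF y ≤ 80 ∧ -41 ≤ phiF y - 2 * (y * phiF' y) := by
  rw [phiF, phiF']
  rcases le_or_gt y 40 with h | h
  · rw [if_pos h, if_pos h]
    refine ⟨hy, ?_, ?_⟩ <;> linarith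
  · rw [if_neg (not_le.2 h), if_neg (not_le.2 h), max_eq_left h.le]
    have hy0 : 0 < y := by linarith
    have h1 : 1600 / y ≤ 40 := by rw [div_le_iff₀ hy0]; linarith
    have h2 : 0 ≤ 1600 / y := by positivity
    have e : y * (1600 / y ^ 2) = 1600 / y := by field_simp
    rw [e]
    refine ⟨?_, ?_, ?_⟩ <;> linarith

/-- The potential beyond the bulk. -/
theorem plF_far {y : ℝ} (hy : 198 / 5 ≤ y) :
    plF y = -315694081407 / 4882812500 + 807540153 / 390625000 * y ∧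
      plF' y = 807540153 / 390625000 := by
  rw [plF, plF', if_neg (by linarith), if_neg (by linarith)]
  exact ⟨rfl, rfl⟩

/-- The estimate beyond the bulk, in abstract variables. -/
theorem tail_alg {m y z c B D k γ u δ : ℝ} (hm : 99 ≤ m) (hy : y = m * z) (hz : 2 / 5 ≤ z)
    (hc : 0 < c) (hcz : c = 1 - z) (hB : 3 / 2 * y ≤ B) (hD : D ^ 2 ≤ (9 / 2 * y) ^ 2)
    (hγ : γ ^ 2 ≤ 26) (hk : |k| ≤ 8) (hu : |u| ≤ 2 * m / c) :
    -(371 * m / c ^ 2) ≤ k * u + (z * D / c - 2 * γ * u) * δ + B / c * δ ^ 2 := by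
  have hz1 : z ≤ 1 := by linarith
  have hy0 : 0 < y := by rw [hy]; positivity
  have hB0 : 0 < B / c := div_pos (by linarith) hc
  have h1 : -((z * D / c - 2 * γ * u) ^ 2 / (4 * (B / c))) ≤
      (z * D / c - 2 * γ * u) * δ + B / c * δ ^ 2 := by
    have := quad_vertex_le (l := z * D / c - 2 * γ * u) (u := δ) hB0
    rwa [neg_div] at this
  have h2 : (z * D / c - 2 * γ * u) ^ 2 / (4 * (B / c)) ≤
      2 * ((z * D / c) ^ 2 + 4 * (γ ^ 2 * u ^ 2)) * c / (6 * y) := by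
    rw [show (z * D / c - 2 * γ * u) ^ 2 / (4 * (B / c)) =
      (z * D / c - 2 * γ * u) ^ 2 * c / (4 * B) by field_simp]
    refine div_le_div₀ (by positivity) (mul_le_mul_of_nonneg_right ?_ hc.le) (by positivity)
      (by linarith)
    nlinarith [sq_nonneg (z * D / c + 2 * γ * u)]
  have hu2 : (c * u) ^ 2 ≤ (2 * m) ^ 2 := by
    refine sq_le_sq.2 ?_
    rw [abs_mul, abs_of_pos hc, abs_of_pos (show (0 : ℝ) < 2 * m by linarith), mul_comm]
    exact (le_div_iff₀ hc).1 hu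
  have h3 : 2 * ((z * D / c) ^ 2 + 4 * (γ ^ 2 * u ^ 2)) * c / (6 * y) ≤ 355 * m / c ^ 2 := by
    rw [div_le_div_iff₀ (by positivity) (by positivity),
      show 2 * ((z * D / c) ^ 2 + 4 * (γ ^ 2 * u ^ 2)) * c * c ^ 2 =
        2 * c * (z ^ 2 * D ^ 2) + 8 * c * (γ ^ 2 * (c * u) ^ 2) by field_simp; ring]
    have a1 := mul_le_mul_of_nonneg_left hD (show 0 ≤ 2 * c * z ^ 2 by positivity)
    have a2 := mul_le_mul_of_nonneg_left (mul_le_mul hγ hu2 (sq_nonneg _) (by norm_num))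
      (show 0 ≤ 8 * c by positivity)
    have a3 : c ≤ 1 := by linarith
    have a4 : z ^ 2 ≤ 1 := by nlinarith
    have a5 : c * z ^ 2 ≤ 1 := by nlinarith
    have a6 := mul_le_mul_of_nonneg_left a5 (show 0 ≤ 81 / 2 * (m * z) ^ 2 by positivity)
    have a7 := mul_le_mul_of_nonneg_left a3 (show 0 ≤ 832 * m ^ 2 by positivity)
    subst hy
    nlinarith [mul_nonneg (sq_nonneg m) (sub_nonneg.2 hz), mul_nonneg (sq_nonneg m) (sub_nonneg.2 hz1),
      mul_nonneg (mul_nonneg (sq_nonneg m) (show 0 ≤ z by linarith)) (sub_nonneg.2 hz1)]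
  have h4 : -(16 * m / c ^ 2) ≤ k * u := by
    have hku : |k * u| ≤ 8 * (2 * m / c) := by
      rw [abs_mul]; exact mul_le_mul hk hu (abs_nonneg _) (by norm_num)
    have : 8 * (2 * m / c) ≤ 16 * m / c ^ 2 := by
      rw [mul_div_assoc', div_le_div_iff₀ hc (by positivity)]
      nlinarith [mul_nonneg (mul_nonneg (show (0 : ℝ) ≤ m by linarith) hc.le)
        (show 0 ≤ 1 - c by linarith)]
    linarith [neg_abs_le (k * u)]
  have : 371 * m / c ^ 2 = 355 * m / c ^ 2 + 16 * m / c ^ 2 := by ring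
  linarith

/-- The coefficient of `d` beyond the bulk. -/
theorem dh_far {y z e : ℝ} (hy : 198 / 5 ≤ y) (hz0 : 0 ≤ z) (hz1 : z ≤ 1) (he0 : 0 ≤ e)
    (he : e ≤ 1 / 99) :
    |(1 - z) * (-(203 / 50) * (1 / 2 + 3 / 4 * z + 15 / 16 * z ^ 2) +
          2 * (807540153 / 390625000) - 103 / 20 - -(141 / 50) * e) +
        203 / 100 * (y * (3 / 2 + 3 / 8 * z + 5 / 16 * z ^ 2)) -
        (-315694081407 / 4882812500 + 807540153 / 390625000 * y)| ≤ 9 / 2 * y := by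
  have hz2 : z ^ 2 ≤ 1 := pow_le_one₀ hz0 hz1
  have hc : 0 ≤ 1 - z := by linarith
  have hy0 : 0 ≤ y := by linarith
  have hz20 := sq_nonneg z
  have a1 := mul_nonneg hy0 hz20
  have a2 := mul_nonneg hy0 hz0
  have a3 := mul_le_mul_of_nonneg_left hz1 hy0
  have a4 := mul_le_mul_of_nonneg_left hz2 hy0
  set K := -(203 / 50) * (1 / 2 + 3 / 4 * z + 15 / 16 * z ^ 2) +
          2 * (807540153 / 390625000) - 103 / 20 - -(141 / 50) * e with hK
  have k1 : -20 ≤ K := by linarith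
  have k2 : K ≤ 5 := by linarith
  have k3 : -20 ≤ (1 - z) * K := by nlinarith
  have k4 : (1 - z) * K ≤ 5 := by nlinarith
  rw [abs_le]
  constructor <;> linarith

/-- The coefficients beyond the bulk. -/
theorem far_coeff (hp : 98 ≤ p) {s : ℝ} (hs : s ∈ Ioo (0 : ℝ) 1)
    (hy1 : 198 / 5 ≤ ((p : ℝ) + 1) * s ^ 2) :
    3 / 2 * (((p : ℝ) + 1) * s ^ 2) ≤ bF p s ∧
      dhF p s ^ 2 ≤ (9 / 2 * (((p : ℝ) + 1) * s ^ 2)) ^ 2 := by
  obtain ⟨hy0, he, he', -⟩ := pt_mem hp s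
  have hcz : 0 < 1 - s ^ 2 := by nlinarith [hs.1, hs.2]
  have hz1 : s ^ 2 ≤ 1 := by linarith
  obtain ⟨hf1, hf2, hf3⟩ := phiF_bounds hy1
  obtain ⟨hpl, hpl'⟩ := plF_far hy1
  obtain ⟨y, hye⟩ : ∃ y, ((p : ℝ) + 1) * s ^ 2 = y := ⟨_, rfl⟩
  obtain ⟨e, hee⟩ : ∃ e, 1 / ((p : ℝ) + 1) = e := ⟨_, rfl⟩
  constructor
  · rw [bF]
    rw [hye] at hf1 hf2 hf3 hy0 hy1 ⊢
    rw [hee] at he he' ⊢
    generalize phiF y = φ at hf1 hf2 hf3 ⊢
    generalize y * phiF' y = φd at hf3 ⊢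
    have b1 := mul_le_mul_of_nonneg_right (show 16 / 25 + 97 / 100 * e ≤ (13 : ℝ) / 20 by linarith)
      (show 0 ≤ y + 3 * s ^ 2 by linarith [sq_nonneg s])
    have b2 := mul_le_mul_of_nonneg_left b1 hcz.le
    have b3 := mul_le_mul_of_nonneg_left hf3 hcz.le
    have b4 := mul_le_mul_of_nonneg_left hf1 hy0
    have b5 := mul_nonneg hcz.le (show 0 ≤ 69 / 100 * y - 61 / 100 * s ^ 2 - 60 / 100 by linarith)
    linarith
  · have hD2 : |dhF p s| ≤ 9 / 2 * (((p : ℝ) + 1) * s ^ 2) := by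
      rw [dhF, hpl, hpl']
      exact dh_far hy1 (sq_nonneg s) hz1 he.le he'
    rw [← sq_abs]
    exact pow_le_pow_left₀ (abs_nonneg _) hD2 2

/-- The potentials beyond the bulk. -/
theorem far_pot (hp : 98 ≤ p) {s : ℝ} (hs : s ∈ Ioo (0 : ℝ) 1)
    (hs2 : 2 / 5 ≤ s ^ 2) (hy1 : 198 / 5 ≤ ((p : ℝ) + 1) * s ^ 2) :
    poleF p s ^ 2 ≤ 26 ∧ |potK p s| ≤ 8 := by
  obtain ⟨hy0, he, he', hz⟩ := pt_mem hp s
  have hsm := hs
  have hcz : 0 < 1 - s ^ 2 := by nlinarith [hs.1, hs.2]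
  obtain ⟨hf1, hf2, -⟩ := phiF_bounds hy1
  obtain ⟨hpl, -⟩ := plF_far hy1
  constructor
  · rw [poleF]
    have hg0 : 0 ≤ 67 / 50 * (1 - s ^ 2) + 47 / 1000 * phiF (((p : ℝ) + 1) * s ^ 2) := by positivity
    refine (pow_le_pow_left₀ hg0 (show _ ≤ (5 : ℝ) by linarith) 2).trans (by norm_num)
  · rw [potK, hpl]
    have h2 : s ^ 4 ≤ 1 := pow_le_one₀ hsm.1.le hsm.2.le
    have h3 : s ^ 6 ≤ 1 := pow_le_one₀ hsm.1.le hsm.2.le
    have h20 := pow_nonneg hsm.1.le 4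
    have h30 := pow_nonneg hsm.1.le 6
    rw [mul_add (1 / ((p : ℝ) + 1)), show 1 / ((p : ℝ) + 1) * (807540153 / 390625000 * (((p : ℝ) + 1) * s ^ 2)) =
      807540153 / 390625000 * s ^ 2 by field_simp]
    rw [abs_le]
    constructor <;> linarith

/-- Beyond the bulk the cancelled cell is at least `ell wS - 380 m / c ^ 4`. -/
theorem tail_pointwise (hp : 98 ≤ p) {ell s t a r q : ℝ} (h : FlatState p ell s t a r q)
    (h0 : 0 ≤ ell) (hell : ell ≤ 6 / ((p : ℝ) + 1)) (hs : 2 / 5 ≤ s ^ 2) :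
    ell * wS p (arc s) - 380 * ((p : ℝ) + 1) / (1 - s ^ 2) ^ 2 ≤
      cancelExpr p (gamC p) (nuC p) ell (fun s t => s + 1 * (s - t)) (fun _ _ => 1 + 1)
        (fun _ _ => -1) (quadPot (potK p) (potB p)) (quadPotS (potK p) (potK' p) (potB p) (potB' p))
        (quadPotT (potK p) (potB p)) s t a r := by
  obtain ⟨hy0, he, he', hz⟩ := pt_mem hp s
  have hpp : (98 : ℝ) ≤ p := by exact_mod_cast hp
  have hsm := h.state.s_mem
  have hc := h.state.arc_pos'
  have hc2 : arc s ^ 2 = 1 - s ^ 2 := Real.sq_sqrt (by nlinarith [hsm.1, hsm.2])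
  have hcz : 0 < 1 - s ^ 2 := hc2 ▸ pow_pos hc 2
  have hv : 0 < 1 / r := by have := h.state.rate_pos; positivity
  have hb := Ident.b0_pos p
  obtain ⟨hn1, hn2⟩ := nuC_bounds hp
  have hn0 : 0 ≤ nuC p := le_trans (by positivity) hn1
  have hg := gamC_pos p
  have e1 : cancelExpr p (gamC p) (nuC p) ell (fun s t => s + 1 * (s - t)) (fun _ _ => 1 + 1)
        (fun _ _ => -1) (quadPot (potK p) (potB p)) (quadPotS (potK p) (potK' p) (potB p) (potB' p))
        (quadPotT (potK p) (potB p)) s t a r =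
      cancelExpr p 0 (nuC p) ell (fun s t => s + 1 * (s - t)) (fun _ _ => 1 + 1)
        (fun _ _ => -1) (quadPot (potK p) (potB p)) (quadPotS (potK p) (potK' p) (potB p) (potB' p))
        (quadPotT (potK p) (potB p)) s t a r + gamC p * Ident.b0 p * (1 / a - 1 / arc s) := by
    simp only [cancelExpr]; ring
  have h1 := cancelExpr_quad_ge (nu := nuC p) (ell := ell) (g := 1) le_rfl (potK p) (potK' p)
    (potB p) (potB' p) h
  rw [e1]
  have hG : gamC p * Ident.b0 p = 203 / 100 * ((p : ℝ) + 1) := by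
    rw [gamC, div_mul_cancel₀ _ hb.ne']
  have hc4 : 1 / arc s ≤ 1 / (1 - s ^ 2) ^ 2 := by
    refine one_div_le_one_div_of_le (by positivity) ?_
    rw [← hc2, ← pow_mul]
    exact pow_le_of_le_one hc.le (Real.sqrt_le_one.2 (by nlinarith)) (by norm_num)
  have hgam : -(203 / 100 * ((p : ℝ) + 1) / (1 - s ^ 2) ^ 2) ≤
      gamC p * Ident.b0 p * (1 / a - 1 / arc s) := by
    rw [hG]
    have := mul_le_mul_of_nonneg_left hc4 (show 0 ≤ 203 / 100 * ((p : ℝ) + 1) by positivity)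
    rw [mul_one_div (203 / 100 * ((p : ℝ) + 1)) ((1 - s ^ 2) ^ 2)] at this
    nlinarith [show 0 ≤ 203 / 100 * ((p : ℝ) + 1) * (1 / a) from
      mul_nonneg (by positivity) (one_div_nonneg.2 h.state.pos.le)]
  have hU0 : 0 ≤ cancelUU p 0 (nuC p) 1 s (1 / r) * ((1 / r - 1) ^ 2 / (1 / r)) := by
    have : 0 ≤ 2 * nuC p * (1 + 1) * (1 - s ^ 2) := by positivity
    simp only [cancelUU, zero_mul, zero_div, sub_zero]
    positivity
  have hD := mul_le_mul_of_nonneg_right (potDD_ge hp hsm hv) (sq_nonneg (t - s))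
  rw [potD_eq hsm, cancelU] at h1
  simp only [zero_mul, zero_div, zero_add] at h1
  have hz1 : s ^ 2 ≤ 1 := by linarith
  have hy1 : 198 / 5 ≤ ((p : ℝ) + 1) * s ^ 2 := by
    nlinarith [mul_le_mul (show (99 : ℝ) ≤ (p : ℝ) + 1 by linarith) hs (by norm_num)
      (show (0 : ℝ) ≤ (p : ℝ) + 1 by linarith)]
  have key := tail_alg (m := (p : ℝ) + 1) (y := ((p : ℝ) + 1) * s ^ 2) (z := s ^ 2)
    (c := 1 - s ^ 2) (B := bF p s) (D := dhF p s) (k := potK p s) (γ := poleF p s)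
    (u := 1 / r - 1) (δ := (t - s) / s) (by linarith) rfl hs hcz rfl ?_ ?_ ?_ ?_ ?_
  · have eD : (s ^ 2 * dhF p s / (1 - s ^ 2) - 2 * poleF p s * (1 / r - 1)) *
        ((t - s) / s) = s * dhF p s / (1 - s ^ 2) * (t - s) +
          cancelUD (nuC p) 1 (potB p) s (1 / r) * ((1 / r - 1) * (t - s)) := by
      have := hsm.1.ne'
      rw [cancelUD, potB]
      field_simp
      ring
    have eB : bF p s / (1 - s ^ 2) * ((t - s) / s) ^ 2 =
        bF p s / (1 - s ^ 2) / s ^ 2 * (t - s) ^ 2 := by ring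
    rw [eD, eB] at key
    have h380 : 380 * ((p : ℝ) + 1) / (1 - s ^ 2) ^ 2 = 371 * ((p : ℝ) + 1) / (1 - s ^ 2) ^ 2 +
        203 / 100 * ((p : ℝ) + 1) / (1 - s ^ 2) ^ 2 +
        697 / 100 * ((p : ℝ) + 1) / (1 - s ^ 2) ^ 2 := by ring
    have : 0 ≤ 697 / 100 * ((p : ℝ) + 1) / (1 - s ^ 2) ^ 2 := by positivity
    linarith
  · exact (far_coeff hp hsm hy1).1
  · exact (far_coeff hp hsm hy1).2
  · exact (far_pot hp hsm hs hy1).1
  · exact (far_pot hp hsm hs hy1).2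
  · have hu := inv_rate_le_crude hp h h0 hell hs
    have : 1 ≤ 2 * ((p : ℝ) + 1) / (1 - s ^ 2) := by
      rw [le_div_iff₀ hcz]; linarith [sq_nonneg s]
    rw [abs_le]
    constructor <;> linarith

/-- The products in the moments beyond the bulk. -/
theorem prod_ge {k : ℝ} (hk : 95 ≤ k) :
    (∏ i ∈ Finset.range 29, (98 + 2 * ((3 + i : ℕ) : ℝ))) * (k + 3) ^ 3 ≤
      ∏ i ∈ Finset.range 32, (k + 2 * (i : ℝ) + 3) := by
  rw [show (32 : ℕ) = 3 + 29 from rfl, Finset.prod_range_add]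
  rw [mul_comm]
  refine mul_le_mul ?_ (Finset.prod_le_prod (fun i _ => by positivity) fun i _ => by linarith)
    (Finset.prod_nonneg fun i _ => by positivity) (Finset.prod_nonneg fun i _ => by positivity)
  simp only [Finset.prod_range_succ, Finset.prod_range_zero]
  push_cast
  nlinarith [mul_nonneg (show 0 ≤ k + 3 by linarith) (show 0 ≤ k + 3 by linarith)]

/-- The mean of the part beyond the bulk. -/
theorem tail_mean_le (hp : 98 ≤ p) :
    380 * ((p : ℝ) + 1) * (5 / 2) ^ 32 * moment (p - 3) 32 ≤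
      1 / 100 / ((p : ℝ) + 1) ^ 2 * half (p + 1) := by
  obtain ⟨k, rfl⟩ : ∃ k, p = k + 3 := ⟨p - 3, by omega⟩
  rw [show k + 3 - 3 = k by omega]
  have hk : (95 : ℝ) ≤ k := by exact_mod_cast (by omega : 95 ≤ k)
  have h1 := moment_eq k 32
  have h2 := prod_ge hk
  have hodd : (∏ i ∈ Finset.range 32, (2 * (i : ℝ) + 1)) =
      (∏ i ∈ Finset.range 32, (2 * i + 1) : ℕ) := by push_cast; rfl
  rw [hodd] at h1
  obtain ⟨N, hN⟩ : ∃ N : ℕ, (∏ i ∈ Finset.range 32, (2 * i + 1) : ℕ) = N := ⟨_, rfl⟩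
  have hN' : N = 112275575285571389562324404930670903477890625 := by rw [← hN]; decide +kernel
  rw [hN] at h1
  obtain ⟨C, hC⟩ : ∃ C : ℝ, (∏ i ∈ Finset.range 29, (98 + 2 * ((3 + i : ℕ) : ℝ))) = C := ⟨_, rfl⟩
  rw [hC] at h2
  have hC' : C = (∏ i ∈ Finset.range 29, (98 + 2 * (3 + i)) : ℕ) := by rw [← hC]; push_cast; rfl
  have hC'' : (∏ i ∈ Finset.range 29, (98 + 2 * (3 + i)) : ℕ) =
      24771513847240282573372277368559183088242066886576046080000000 := by decide +kernel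
  rw [hC''] at hC'
  have hC0 : 0 < C := by rw [hC']; norm_num
  have hM := moment_nonneg k 32
  have h3 := mul_le_mul_of_nonneg_right h2 hM
  rw [h1] at h3
  have hs : half k ≤ 98 / 97 * (100 / 99) * half (k + 4) := by
    have a1 := half_le_shift k
    have a2 := half_le_shift (k + 2)
    push_cast at a2
    have b1 : ((k : ℝ) + 3) / (k + 2) ≤ 98 / 97 := by
      rw [div_le_div_iff₀ (by positivity) (by norm_num)]; linarith
    have b2 : ((k : ℝ) + 2 + 3) / (k + 2 + 2) ≤ 100 / 99 := by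
      rw [div_le_div_iff₀ (by positivity) (by norm_num)]; linarith
    have hp2 := (Ident.half_pos (k + 2)).le
    have hp4 := (Ident.half_pos (k + 4)).le
    calc half k ≤ ((k : ℝ) + 3) / (k + 2) * half (k + 2) := a1
      _ ≤ 98 / 97 * half (k + 2) := mul_le_mul_of_nonneg_right b1 hp2
      _ ≤ 98 / 97 * (100 / 99 * half (k + 4)) := mul_le_mul_of_nonneg_left
          (a2.trans (mul_le_mul_of_nonneg_right b2 hp4)) (by norm_num)
      _ = 98 / 97 * (100 / 99) * half (k + 4) := by ring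
  push_cast
  rw [div_mul_eq_mul_div, le_div_iff₀ (by positivity)]
  have h4 : ((k : ℝ) + 3 + 1) ^ 3 ≤ (99 / 98 * ((k : ℝ) + 3)) ^ 3 :=
    pow_le_pow_left₀ (by positivity) (by linarith) 3
  have h5 := mul_le_mul_of_nonneg_right h4 (mul_nonneg (show (0 : ℝ) ≤ 380 * (5 / 2) ^ 32 * C by
    positivity) hM)
  have h6 := mul_le_mul_of_nonneg_left h3
    (show (0 : ℝ) ≤ 380 * (5 / 2) ^ 32 * (99 / 98) ^ 3 by norm_num)
  have h7 := mul_le_mul_of_nonneg_left hs (show (0 : ℝ) ≤ 380 * (5 / 2) ^ 32 * (99 / 98) ^ 3 * N by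
    positivity)
  have hh := (Ident.half_pos (k + 4)).le
  refine le_of_mul_le_mul_right ?_ hC0
  rw [show k + 3 + 1 = k + 4 from rfl]
  have hfin : (380 : ℝ) * (5 / 2) ^ 32 * (99 / 98) ^ 3 * N * (98 / 97 * (100 / 99)) ≤
      1 / 100 * C := by
    rw [hN', hC']
    norm_num
  have h8 := mul_le_mul_of_nonneg_right hfin hh
  nlinarith [h5, h6, h7, h8]

end Vale.Agent.P237.Petty.Cor.Mid36
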