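import Vale.Agent.P237.Petty.Cor.MidHigh.Point

/-!
# P237: the cut in the logarithm of the rate, and the lower box as a multiplier

The cut with the logarithm of `v = 1 / r` keeps the Padé share of the square, so with a multiplier
it enters the coefficient of `u ^ 2 / v` like the shadow does.
-/

namespace Vale.Agent.P237.Petty.Cor.Mid36

open Set
open Ident (half rate)

variable {p : ℕ}

/-- Above one the logarithm is at most the hyperbolic sine. -/
theorem log_le_half {x : ℝ} (hx : 1 ≤ x) : Real.log x ≤ (x - 1 / x) / 2 := by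
  refine (log_le_pade (by linarith)).trans ?_
  rw [div_le_iff₀ (by linarith)]
  have h0 : 0 < x := by linarith
  have e : (x - 1 / x) / 2 * (2 + 4 * x) = (x - 1) * ((x + 1) * (1 + 2 * x) / x) := by
    field_simp
    ring
  rw [e]
  refine mul_le_mul_of_nonneg_left ?_ (by linarith)
  rw [le_div_iff₀ h0]
  nlinarith [sq_nonneg (x - 1)]

/-- Above one the logarithm is at most the excess over the square root. -/
theorem log_sq_le {v : ℝ} (hv : 1 ≤ v) : Real.log v ^ 2 ≤ (v - 1) ^ 2 / v := by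
  have hv0 : 0 < v := by linarith
  have hw1 : 1 ≤ √v := Real.one_le_sqrt.2 hv
  have hw : 0 < √v := by linarith
  have hv2 : √v ^ 2 = v := Real.sq_sqrt hv0.le
  have h0 : 0 ≤ Real.log v := Real.log_nonneg hv
  have h1 : Real.log v ≤ √v - 1 / √v := by
    have h2 : Real.log √v ≤ (√v - 1 / √v) / 2 := by
      exact log_le_half hw1
    rw [Real.log_sqrt hv0.le] at h2
    linarith
  refine (pow_le_pow_left₀ h0 h1 2).trans (le_of_eq ?_)
  have e : √v - 1 / √v = (v - 1) / √v := by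
    field_simp
    rw [hv2]
  rw [e, div_pow, hv2]

/-- Above one the logarithm with a fourth power is at most twice the square. -/
theorem log_sq_rpow_le {m r : ℝ} (hm : 8 ≤ m) (hr : 1 ≤ r) :
    Real.log r ^ 2 * r ^ (2 / m) ≤ 2 * (r - 1) ^ 2 / r := by
  have hr0 : 0 < r := by linarith
  obtain ⟨w, hw1, hwr⟩ : ∃ w : ℝ, 1 ≤ w ∧ r = w ^ 4 :=
    ⟨√√r, Real.one_le_sqrt.2 (Real.one_le_sqrt.2 hr), by
      rw [show (4 : ℕ) = 2 * 2 from rfl, pow_mul, Real.sq_sqrt (Real.sqrt_nonneg _),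
        Real.sq_sqrt hr0.le]⟩
  have hw : 0 < w := by linarith
  have h1 : r ^ (2 / m) ≤ w := by
    refine (Real.rpow_le_rpow_of_exponent_le hr (show 2 / m ≤ ((4 : ℕ) : ℝ)⁻¹ from ?_)).trans
      (le_of_eq ?_)
    · rw [div_le_iff₀ (by linarith)]; push_cast; linarith
    · rw [hwr, Real.pow_rpow_inv_natCast hw.le (by norm_num)]
  have h2 : Real.log r ≤ 2 * (w - 1 / w) := by
    rw [hwr, Real.log_pow]
    have : Real.log w ≤ (w - 1 / w) / 2 := by
      exact log_le_half hw1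
    push_cast
    linarith
  have h0 : 0 ≤ Real.log r := Real.log_nonneg hr
  have e : 2 * (w - 1 / w) = 2 * (w ^ 2 - 1) / w := by field_simp
  rw [e] at h2
  refine (mul_le_mul (pow_le_pow_left₀ h0 h2 2) h1 (Real.rpow_nonneg hr0.le _)
    (sq_nonneg _)).trans ?_
  rw [hwr, div_pow, div_mul_eq_mul_div, div_le_div_iff₀ (by positivity) (by positivity)]
  have h4 : 2 * w ^ 3 ≤ (w ^ 2 + 1) ^ 2 := by nlinarith [sq_nonneg (w ^ 2 - w), sq_nonneg w]
  have h5 := mul_le_mul_of_nonneg_left h4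
    (show 0 ≤ 2 * (w ^ 2 - 1) ^ 2 * w ^ 2 by positivity)
  linear_combination h5

/-- The cut in the logarithm of `1 / r`. -/
theorem cut_log (hp : 1 ≤ p) {ell s t a r q : ℝ} (h : FlatState p ell s t a r q) :
    Real.exp (2 * ell / ((p : ℝ) + 1)) *
        (((p : ℝ) + 1) / 2 * (1 - r ^ (2 / ((p : ℝ) + 1)))) -
        ((p : ℝ) + 1) / 2 * (Real.exp (2 * ell / ((p : ℝ) + 1)) - 1) ≤
      potRate p s * (t - s) + ((p : ℝ) + 1) / (2 * (1 - s ^ 2)) * (t - s) ^ 2 := by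
  have hm : (0 : ℝ) < (p : ℝ) + 1 := by positivity
  have ha := h.state.pos
  have hc := h.state.arc_pos'
  have hct : 0 < arc t := arc_pos ⟨by linarith [h.state.t_mem.1], h.state.t_mem.2⟩
  have hs2 : arc s ^ 2 = 1 - s ^ 2 := Real.sq_sqrt (by nlinarith [h.state.s_mem.1, h.state.s_mem.2])
  have ht2 : arc t ^ 2 = 1 - t ^ 2 := Real.sq_sqrt (by nlinarith [h.state.t_mem.1, h.state.t_mem.2])
  set E := Real.exp (2 * ell / ((p : ℝ) + 1)) with hE
  have hEp : E ^ (p + 1) = Real.exp ell ^ 2 := by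
    rw [hE, ← Real.exp_nat_mul, ← Real.exp_nat_mul]
    congr 1
    push_cast
    field_simp
  have h1 : arc t ^ 2 ≤ E * a ^ 2 := by
    refine (pow_le_pow_iff_left₀ (sq_nonneg _) (by positivity) (Nat.succ_ne_zero p)).1 ?_
    rw [mul_pow, hEp, ← pow_mul, ← pow_mul, mul_comm 2 (p + 1), pow_mul, pow_mul, ← mul_pow]
    exact pow_le_pow_left₀ (pow_nonneg hct.le _) h.cut 2
  have hz : 0 < a / arc s := div_pos ha hc
  have h2 : r ^ (2 / ((p : ℝ) + 1)) = (a / arc s) ^ 2 := by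
    rw [h.state.rate_eq, ← div_pow, ← Real.rpow_natCast (a / arc s) (p + 1),
      ← Real.rpow_mul hz.le]
    push_cast
    rw [mul_div_cancel₀ _ hm.ne', show (2 : ℝ) = ((2 : ℕ) : ℝ) by norm_num, Real.rpow_natCast]
  have hs0 : 0 < 1 - s ^ 2 := hs2 ▸ pow_pos hc 2
  have e : potRate p s * (t - s) + ((p : ℝ) + 1) / (2 * (1 - s ^ 2)) * (t - s) ^ 2 =
      ((p : ℝ) + 1) / 2 * (1 - arc t ^ 2 / arc s ^ 2) := by
    rw [potRate, hs2, ht2]
    field_simp
    ring
  have h3 : arc t ^ 2 / arc s ^ 2 ≤ E * r ^ (2 / ((p : ℝ) + 1)) := by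
    rw [h2, div_pow, ← mul_div_assoc]
    exact div_le_div_of_nonneg_right h1 (sq_nonneg _)
  have h4 := mul_le_mul_of_nonneg_left h3 (show (0 : ℝ) ≤ ((p : ℝ) + 1) / 2 by positivity)
  linarith

/-- The Padé share of `u ^ 2 / v` below the logarithm. -/
theorem log_ge {v : ℝ} (hv : 0 < v) :
    (v - 1) - (2 * v + 1) / (2 * (v + 2)) * ((v - 1) ^ 2 / v) ≤ Real.log v := by
  refine le_trans (le_of_eq ?_) (pade_le_log hv)
  field_simp
  ring

theorem exp_rate_ge_one {ell : ℝ} (h0 : 0 ≤ ell) :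
    1 ≤ Real.exp (2 * ell / ((p : ℝ) + 1)) :=
  Real.one_le_exp (div_nonneg (by linarith) (by positivity))

/-- The cut for `1 ≤ v`, while the logarithm is small against the order. -/
theorem cut_high (hp : 1 ≤ p) {ell s t a r q : ℝ} (h : FlatState p ell s t a r q) (h0 : 0 ≤ ell)
    (hv : 1 ≤ 1 / r) (hv' : 1 / r - 1 ≤ (p : ℝ) + 1) :
    (1 / r - 1) - ((2 * (1 / r) + 1) / (2 * (1 / r + 2)) + 1 / ((p : ℝ) + 1)) *
          ((1 / r - 1) ^ 2 / (1 / r)) -
        ((p : ℝ) + 1) / 2 * (Real.exp (2 * ell / ((p : ℝ) + 1)) - 1) ≤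
      potRate p s * (t - s) + ((p : ℝ) + 1) / (2 * (1 - s ^ 2)) * (t - s) ^ 2 := by
  refine le_trans ?_ (cut_log hp h)
  have hr := h.state.rate_pos
  have hm : (0 : ℝ) < (p : ℝ) + 1 := by positivity
  obtain ⟨v, hve⟩ : ∃ v, 1 / r = v := ⟨_, rfl⟩
  rw [hve] at hv hv' ⊢
  have hv0 : 0 < v := by linarith
  have hrv : r = 1 / v := by rw [← hve, one_div_one_div]
  have hL0 : 0 ≤ Real.log v := Real.log_nonneg hv
  have hL1 : Real.log v ≤ v - 1 := Real.log_le_sub_one_of_pos hv0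
  have hL2 := log_sq_le hv
  have hL3 := log_ge hv0
  have hrp : r ^ (2 / ((p : ℝ) + 1)) = Real.exp (-(2 * Real.log v / ((p : ℝ) + 1))) := by
    rw [Real.rpow_def_of_pos hr, hrv, one_div, Real.log_inv]
    ring_nf
  obtain ⟨x, hxe⟩ : ∃ x, 2 * Real.log v / ((p : ℝ) + 1) = x := ⟨_, rfl⟩
  have hx0 : 0 ≤ x := hxe ▸ by positivity
  have h5 : Real.exp (-x) ≤ 1 - x + x ^ 2 / 2 := by
    rw [Real.exp_neg, inv_le_iff_one_le_mul₀ (Real.exp_pos x)]
    have hp0 : 0 ≤ 1 - x + x ^ 2 / 2 := by nlinarith [sq_nonneg (x - 1)]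
    refine le_trans ?_ (mul_le_mul_of_nonneg_left (Real.quadratic_le_exp_of_nonneg hx0) hp0)
    nlinarith [pow_nonneg hx0 4]
  rw [hrp, hxe]
  set L := Real.log v with hL
  set E := Real.exp (2 * ell / ((p : ℝ) + 1)) with hE
  have hX : L - L ^ 2 / ((p : ℝ) + 1) ≤ ((p : ℝ) + 1) / 2 * (1 - Real.exp (-x)) := by
    refine le_trans (le_of_eq ?_) (mul_le_mul_of_nonneg_left
      (show x - x ^ 2 / 2 ≤ 1 - Real.exp (-x) by linarith) (by positivity))
    rw [← hxe]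
    field_simp
  have hX0 : 0 ≤ L - L ^ 2 / ((p : ℝ) + 1) := by
    rw [sub_nonneg, div_le_iff₀ hm, sq]
    exact mul_le_mul_of_nonneg_left (hL1.trans hv') hL0
  have hE1 : 1 ≤ E := exp_rate_ge_one h0
  have h6 := mul_le_mul hE1 hX hX0 (by linarith)
  have h7 := div_le_div_of_nonneg_right hL2 hm.le
  rw [add_mul, one_div_mul_eq_div]
  linarith

/-- The exponential less its share beyond first order. -/
theorem exp_sub_le {x : ℝ} (hx0 : 0 ≤ x) : Real.exp x ≤ 1 + x + x ^ 2 / 2 * Real.exp x := by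
  have hE := Real.exp_pos x
  rcases le_total x 1 with hx1 | hx1
  · have h := Real.exp_bound' hx0 hx1 (n := 3) (by norm_num)
    simp only [Finset.sum_range_succ, Finset.sum_range_zero] at h
    norm_num at h
    nlinarith [mul_le_mul_of_nonneg_left h (show 0 ≤ 1 - x ^ 2 / 2 by nlinarith),
      pow_nonneg hx0 3, pow_nonneg hx0 4, pow_nonneg hx0 5]
  rcases le_total 2 x with hx2 | hx2
  · nlinarith [mul_le_mul_of_nonneg_right (show 1 ≤ x ^ 2 / 2 by nlinarith) hE.le]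
  · have h := pow_le_pow_left₀ (by linarith) (Real.one_sub_le_exp_neg (x / 2)) 2
    rw [← Real.exp_nat_mul, show ((2 : ℕ) : ℝ) * -(x / 2) = -x by push_cast; ring] at h
    have h2 := mul_le_mul_of_nonneg_left h hE.le
    rw [← Real.exp_add, add_neg_cancel, Real.exp_zero] at h2
    nlinarith [mul_le_mul_of_nonneg_left h2 (show 0 ≤ 1 + x by linarith),
      mul_nonneg (mul_nonneg hE.le (sq_nonneg x)) (sub_nonneg.2 hx1)]

/-- The cut for `v ≤ 1`. -/
theorem cut_low (hp : 7 ≤ p) {ell s t a r q Eh : ℝ} (h : FlatState p ell s t a r q)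
    (hv : 1 / r ≤ 1) (hE : Real.exp (2 * ell / ((p : ℝ) + 1)) ≤ Eh) :
    Eh * ((1 / r - 1) - ((2 * (1 / r) + 1) / (2 * (1 / r + 2)) + 2 / ((p : ℝ) + 1)) *
          ((1 / r - 1) ^ 2 / (1 / r))) -
        ((p : ℝ) + 1) / 2 * (Real.exp (2 * ell / ((p : ℝ) + 1)) - 1) ≤
      potRate p s * (t - s) + ((p : ℝ) + 1) / (2 * (1 - s ^ 2)) * (t - s) ^ 2 := by
  refine le_trans ?_ (cut_log (by omega) h)
  have hr := h.state.rate_pos
  have hm : (0 : ℝ) < (p : ℝ) + 1 := by positivity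
  have hm8 : (8 : ℝ) ≤ (p : ℝ) + 1 := by
    have : (7 : ℝ) ≤ p := by exact_mod_cast hp
    linarith
  have hr1 : 1 ≤ r := by rwa [div_le_one hr] at hv
  have hl0 : 0 ≤ Real.log r := Real.log_nonneg hr1
  obtain ⟨x, hxe⟩ : ∃ x, 2 * Real.log r / ((p : ℝ) + 1) = x := ⟨_, rfl⟩
  have hx0 : 0 ≤ x := hxe ▸ by positivity
  have hrp : r ^ (2 / ((p : ℝ) + 1)) = Real.exp x := by
    rw [Real.rpow_def_of_pos hr, ← hxe]; ring_nf
  have h5 : Real.exp x ≤ 1 + x + x ^ 2 / 2 * Real.exp x := exp_sub_le hx0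
  have h6 := log_sq_rpow_le hm8 hr1
  rw [hrp] at h6
  rw [hrp]
  have hlv : Real.log (1 / r) = -Real.log r := by rw [one_div, Real.log_inv]
  have hL3 := log_ge (show 0 < 1 / r by positivity)
  rw [hlv] at hL3
  set l := Real.log r with hl
  set E := Real.exp (2 * ell / ((p : ℝ) + 1)) with hEd
  have e6 : 2 * (r - 1) ^ 2 / r = 2 * ((1 / r - 1) ^ 2 / (1 / r)) := by field_simp; ring
  rw [e6] at h6
  have hX : (1 / r - 1) - ((2 * (1 / r) + 1) / (2 * (1 / r + 2)) + 2 / ((p : ℝ) + 1)) *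
      ((1 / r - 1) ^ 2 / (1 / r)) ≤ ((p : ℝ) + 1) / 2 * (1 - Real.exp x) := by
    have h7 := mul_le_mul_of_nonneg_left
      (show -x - x ^ 2 / 2 * Real.exp x ≤ 1 - Real.exp x by linarith)
      (show (0 : ℝ) ≤ ((p : ℝ) + 1) / 2 by positivity)
    have e7 : ((p : ℝ) + 1) / 2 * (-x - x ^ 2 / 2 * Real.exp x) =
        -l - l ^ 2 * Real.exp x / ((p : ℝ) + 1) := by rw [← hxe]; field_simp
    rw [e7] at h7
    have h8 := div_le_div_of_nonneg_right h6 hm.le
    rw [show 2 * ((1 / r - 1) ^ 2 / (1 / r)) / ((p : ℝ) + 1) =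
      2 / ((p : ℝ) + 1) * ((1 / r - 1) ^ 2 / (1 / r)) by ring] at h8
    rw [add_mul]
    linarith
  have hX0 : ((p : ℝ) + 1) / 2 * (1 - Real.exp x) ≤ 0 :=
    mul_nonpos_of_nonneg_of_nonpos (by positivity) (by linarith [Real.one_le_exp hx0])
  have hE0 : 0 < E := Real.exp_pos _
  have h9 := mul_le_mul_of_nonneg_left hX (show 0 ≤ Eh by linarith)
  have h10 := mul_le_mul_of_nonpos_right hE hX0
  linarith

/-- The factor of the cut against `ell`. -/
theorem cut_const_le {m ell : ℝ} (hm : 0 < m) (h0 : 0 ≤ ell) (hell : ell ≤ 6 / m) (h12 : 12 ≤ m ^ 2) :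
    m / 2 * (Real.exp (2 * ell / m) - 1) ≤ ell * (1 + 12 * (1 / m) ^ 2) := by
  have hb : 2 * ell / m ≤ 12 / m ^ 2 := by
    rw [div_le_div_iff₀ hm (by positivity)]
    have := mul_le_mul_of_nonneg_right hell (show 0 ≤ m by linarith)
    rw [div_mul_cancel₀ _ hm.ne'] at this
    nlinarith
  have hx0 : 0 ≤ 2 * ell / m := by positivity
  have hx1 : 2 * ell / m ≤ 1 := hb.trans ((div_le_one (by positivity)).2 h12)
  have h1 := (abs_le.1 (Real.abs_exp_sub_one_sub_id_le (by rwa [abs_of_nonneg hx0]))).2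
  have h2 := mul_le_mul_of_nonneg_left (show Real.exp (2 * ell / m) - 1 ≤
    2 * ell / m * (1 + 12 / m ^ 2) by nlinarith [mul_le_mul_of_nonneg_left hb hx0])
    (show 0 ≤ m / 2 by positivity)
  refine h2.trans (le_of_eq ?_)
  field_simp

/-- The lower box, elementary. -/
theorem box_low {ell s t a r q B : ℝ} (h : FlatState p ell s t a r q) (h0 : 0 ≤ ell)
    (hB : Real.exp ell - 1 ≤ B) :
    s - t ≤ B * ((1 - s ^ 2) / (s * ((p : ℝ) + 3))) := by
  have hs := h.state.s_mem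
  have hc := pow_pos h.state.arc_pos' (p + 1)
  have h1 := h.disp_ge h0
  have hs2 : arc s ^ 2 = 1 - s ^ 2 := Real.sq_sqrt (by nlinarith [hs.1, hs.2])
  have hT := circHigh_le (p := p) (s := s) ⟨hs.1, hs.2.le⟩
  have hq : (((p : ℝ) + 4) * s ^ 2 + 2) / (((p : ℝ) + 3) * s * (((p : ℝ) + 3) * s ^ 2 + 3)) ≤
      1 / (s * ((p : ℝ) + 3)) := by
    have h3 : s ^ 2 ≤ 1 := by nlinarith [hs.1, hs.2]
    have hs' := hs.1
    rw [div_le_div_iff₀ (by positivity) (by positivity)]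
    nlinarith [mul_nonneg (mul_nonneg hs'.le (show (0 : ℝ) ≤ (p : ℝ) + 3 by positivity))
      (sub_nonneg.2 h3)]
  have hB0 : 0 ≤ B := le_trans (sub_nonneg.2 (Real.one_le_exp h0)) hB
  have h2 : (s - t) * arc s ^ (p + 1) ≤
      B * (arc s ^ (p + 3) * (1 / (s * ((p : ℝ) + 3)))) :=
    h1.trans (mul_le_mul hB (hT.trans (mul_le_mul_of_nonneg_left hq
      (pow_nonneg h.state.arc_pos'.le _))) (circHigh_pos p ⟨hs.1.le, hs.2⟩).le hB0)
  refine le_of_mul_le_mul_right (h2.trans (le_of_eq ?_)) hc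
  rw [show arc s ^ (p + 3) = arc s ^ (p + 1) * (1 - s ^ 2) by rw [← hs2]; ring]
  field_simp

end Vale.Agent.P237.Petty.Cor.Mid36
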