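import Vale.Agent.P237.Petty.Cor.CutQuad

/-!
# P237: the square in `d / s` and the quadratic in `u`, in abstract variables

With `z = y e` and `c = 1 - z` the cancelled cell with its multipliers is, up to positive terms,
`e l u + (z D / c - 2 γ u) δ + A u ^ 2 / v + (B / c) δ ^ 2`.
-/

namespace Vale.Agent.P237.Petty.Cor.Mid36

/-- The square in `δ`. -/
theorem square_base {e y c B D γ l A R u δ : ℝ} (hB : 0 < B) (hc : 0 < c)
    (hU : 0 ≤ e ^ 2 * (4 * B * c * R - y ^ 2 * D ^ 2) + 4 * c * e * (B * l + y * D * γ) * u +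
      4 * c * (B * A - γ ^ 2 * c) * u ^ 2) :
    -(e ^ 2 * R) ≤ e * l * u + (e * y * D / c - 2 * γ * u) * δ + A * u ^ 2 + B / c * δ ^ 2 := by
  have e1 : e * l * u + (e * y * D / c - 2 * γ * u) * δ + A * u ^ 2 + B / c * δ ^ 2 + e ^ 2 * R =
      ((2 * B * δ + (e * y * D - 2 * γ * c * u)) ^ 2 +
        (e ^ 2 * (4 * B * c * R - y ^ 2 * D ^ 2) + 4 * c * e * (B * l + y * D * γ) * u +
          4 * c * (B * A - γ ^ 2 * c) * u ^ 2)) / (4 * B * c) := by
    field_simp
    ring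
  have : 0 ≤ ((2 * B * δ + (e * y * D - 2 * γ * c * u)) ^ 2 +
        (e ^ 2 * (4 * B * c * R - y ^ 2 * D ^ 2) + 4 * c * e * (B * l + y * D * γ) * u +
          4 * c * (B * A - γ ^ 2 * c) * u ^ 2)) / (4 * B * c) :=
    div_nonneg (add_nonneg (sq_nonneg _) hU) (by positivity)
  linarith

/-- A quadratic with a positive leading coefficient and the discriminant of the sign. -/
theorem disc_nonneg {e c Q L K u : ℝ} (hc : 0 < c) (hK : 0 < K) (h : c * L ^ 2 ≤ Q * K) :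
    0 ≤ e ^ 2 * Q + 4 * c * e * L * u + 4 * c * K * u ^ 2 := by
  have e1 : e ^ 2 * Q + 4 * c * e * L * u + 4 * c * K * u ^ 2 =
      (c * (2 * K * u + e * L) ^ 2 + e ^ 2 * (Q * K - c * L ^ 2)) / K := by
    field_simp
    ring
  rw [e1]
  exact div_nonneg (add_nonneg (mul_nonneg hc.le (sq_nonneg _))
    (mul_nonneg (sq_nonneg _) (sub_nonneg.2 h))) hK.le

/-- A quadratic on an interval from nonnegative start, slope and end. -/
theorem interval_nonneg {a b k u hi : ℝ} (ha : 0 ≤ a) (hb : 0 ≤ b) (h0 : 0 ≤ u) (hu : u ≤ hi)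
    (h : 0 ≤ a + b * hi + k * hi ^ 2) : 0 ≤ a + b * u + k * u ^ 2 := by
  rcases le_total 0 k with hk | hk
  · positivity
  rcases eq_or_lt_of_le (h0.trans hu) with h1 | h1
  · have : u = 0 := by linarith
    simp [this, ha]
  refine nonneg_of_mul_nonneg_left (b := hi) ?_ h1
  nlinarith [mul_nonneg (sub_nonneg.2 hu) ha, mul_nonneg h0 h,
    mul_nonneg (mul_nonneg (mul_nonneg (neg_nonneg.2 hk) h0) (sub_nonneg.2 hu)) h1.le]

/-- A concave quadratic on an interval from its start and its end. -/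
theorem concave_nonneg {a b k u hi : ℝ} (ha : 0 ≤ a) (hk : k ≤ 0) (h0 : 0 ≤ u) (hu : u ≤ hi)
    (h : 0 ≤ a + b * hi + k * hi ^ 2) : 0 ≤ a + b * u + k * u ^ 2 := by
  rcases eq_or_lt_of_le (h0.trans hu) with h1 | h1
  · have : u = 0 := by linarith
    simp [this, ha]
  refine nonneg_of_mul_nonneg_left (b := hi) ?_ h1
  nlinarith [mul_nonneg (sub_nonneg.2 hu) ha, mul_nonneg h0 h,
    mul_nonneg (mul_nonneg (mul_nonneg (neg_nonneg.2 hk) h0) (sub_nonneg.2 hu)) h1.le]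

/-- For `v ≤ 1`. -/
theorem low_piece {e y c B D γ l A R u v δ : ℝ} (hB : 0 < B) (hc : 0 < c) (hv : 0 < v)
    (hv1 : v ≤ 1) (hA : 0 ≤ A) (hK : 0 < B * A - γ ^ 2 * c)
    (hd : c * (B * l + y * D * γ) ^ 2 ≤
      (4 * B * c * R - y ^ 2 * D ^ 2) * (B * A - γ ^ 2 * c)) :
    -(e ^ 2 * R) ≤
      e * l * u + (e * y * D / c - 2 * γ * u) * δ + A * (u ^ 2 / v) + B / c * δ ^ 2 := by
  refine (square_base hB hc (disc_nonneg (u := u) hc hK hd) (δ := δ)).trans ?_
  have h1 : u ^ 2 ≤ u ^ 2 / v := le_div_self (sq_nonneg u) hv hv1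
  linarith [mul_le_mul_of_nonneg_left h1 hA]

/-- For `1 ≤ v ≤ w`: with the coefficient `N / (2 (w + 2))` at `w`. -/
theorem high_piece {e y c B D γ l R N A v w δ : ℝ} (hB : 0 < B) (hc : 0 < c)
    (he : 0 ≤ e) (hv : 1 ≤ v) (hvw : v ≤ w) (hAN : N / (2 * (w + 2)) ≤ A)
    (hcond : (0 < B * N - 2 * w * (w + 2) * γ ^ 2 * c ∧
        2 * w * (w + 2) * c * (B * l + y * D * γ) ^ 2 ≤
          (4 * B * c * R - y ^ 2 * D ^ 2) * (B * N - 2 * w * (w + 2) * γ ^ 2 * c)) ∨
      (0 ≤ B * l + y * D * γ ∧ 0 ≤ 4 * B * c * R - y ^ 2 * D ^ 2 ∧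
        0 ≤ 2 * w * (w + 2) * (e ^ 2 * (4 * B * c * R - y ^ 2 * D ^ 2) +
            4 * c * e * (B * l + y * D * γ) * (w - 1)) +
          4 * c * (B * N - 2 * w * (w + 2) * γ ^ 2 * c) * (w - 1) ^ 2)) :
    -(e ^ 2 * R) ≤ e * l * (v - 1) + (e * y * D / c - 2 * γ * (v - 1)) * δ +
      A * ((v - 1) ^ 2 / v) + B / c * δ ^ 2 := by
  have hw : 0 < w := by linarith
  have hv0 : 0 < v := by linarith
  have hW : 0 < 2 * w * (w + 2) := by positivity
  set Aw := N / (2 * (w + 2)) with hAw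
  have eK : B * (Aw / w) - γ ^ 2 * c =
      (B * N - 2 * w * (w + 2) * γ ^ 2 * c) / (2 * w * (w + 2)) := by
    rw [hAw]; field_simp
  have hq : 0 ≤ (v - 1) ^ 2 / v := by positivity
  have h0 := mul_le_mul_of_nonneg_right hAN hq
  rcases le_or_gt 0 Aw with hA | hA
  · have h1 : Aw / w * (v - 1) ^ 2 ≤ Aw * ((v - 1) ^ 2 / v) := by
      rw [← mul_div_assoc, div_mul_eq_mul_div]
      exact div_le_div_of_nonneg_left (by positivity) hv0 hvw
    suffices -(e ^ 2 * R) ≤ e * l * (v - 1) + (e * y * D / c - 2 * γ * (v - 1)) * δ +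
        Aw / w * (v - 1) ^ 2 + B / c * δ ^ 2 by linarith
    refine square_base hB hc ?_
    rcases hcond with ⟨hK, hd⟩ | ⟨hL, hQ, hE⟩
    · refine disc_nonneg hc (by rw [eK]; positivity) ?_
      rw [eK, mul_div_assoc', le_div_iff₀ hW]
      linarith
    · refine interval_nonneg (by positivity) (by positivity) (by linarith) (by linarith : v - 1 ≤ w - 1) ?_
      refine nonneg_of_mul_nonneg_left (b := 2 * w * (w + 2)) ?_ hW
      refine le_of_le_of_eq hE ?_
      rw [eK]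
      field_simp
  · rcases hcond with ⟨hK, -⟩ | ⟨-, hQ, hE⟩
    · have : 0 < B * (Aw / w) - γ ^ 2 * c := by rw [eK]; positivity
      nlinarith [mul_neg_of_pos_of_neg hB (div_neg_of_neg_of_pos hA hw), sq_nonneg γ]
    have h1 : Aw * ((w - 1) / w) * (v - 1) ≤ Aw * ((v - 1) ^ 2 / v) := by
      rw [mul_assoc]
      refine mul_le_mul_of_nonpos_left ?_ hA.le
      rw [div_mul_eq_mul_div, div_le_div_iff₀ hv0 hw]
      nlinarith [mul_nonneg (sub_nonneg.2 hv) (sub_nonneg.2 hvw)]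
    suffices -(e ^ 2 * R) ≤ e * l * (v - 1) + (e * y * D / c - 2 * γ * (v - 1)) * δ +
        Aw * ((w - 1) / w) * (v - 1) + B / c * δ ^ 2 by linarith
    -- the square with the linear share of the negative coefficient
    have e1 : e * l * (v - 1) + (e * y * D / c - 2 * γ * (v - 1)) * δ +
        Aw * ((w - 1) / w) * (v - 1) + B / c * δ ^ 2 + e ^ 2 * R =
        ((2 * B * δ + (e * y * D - 2 * γ * c * (v - 1))) ^ 2 +
          (e ^ 2 * (4 * B * c * R - y ^ 2 * D ^ 2) +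
            (4 * c * e * (B * l + y * D * γ) + 4 * c * B * (Aw * ((w - 1) / w))) * (v - 1) +
            -(4 * c * (γ ^ 2 * c)) * (v - 1) ^ 2)) / (4 * B * c) := by
      field_simp
      ring
    have hU : 0 ≤ e ^ 2 * (4 * B * c * R - y ^ 2 * D ^ 2) +
        (4 * c * e * (B * l + y * D * γ) + 4 * c * B * (Aw * ((w - 1) / w))) * (v - 1) +
        -(4 * c * (γ ^ 2 * c)) * (v - 1) ^ 2 := by
      refine concave_nonneg (by positivity) (neg_nonpos.2 (by positivity)) (by linarith)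
        (by linarith : v - 1 ≤ w - 1) ?_
      refine nonneg_of_mul_nonneg_left (b := 2 * w * (w + 2)) ?_ hW
      refine le_of_le_of_eq hE ?_
      rw [hAw]
      field_simp
      ring
    have : 0 ≤ ((2 * B * δ + (e * y * D - 2 * γ * c * (v - 1))) ^ 2 +
          (e ^ 2 * (4 * B * c * R - y ^ 2 * D ^ 2) +
            (4 * c * e * (B * l + y * D * γ) + 4 * c * B * (Aw * ((w - 1) / w))) * (v - 1) +
            -(4 * c * (γ ^ 2 * c)) * (v - 1) ^ 2)) / (4 * B * c) :=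
      div_nonneg (add_nonneg (sq_nonneg _) hU) (by positivity)
    linarith

end Vale.Agent.P237.Petty.Cor.Mid36
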