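import Vale.Agent.P237.Petty.Cor.Mid36.Certs
import Vale.Agent.P237.Petty.Cor.Mid36.Algebra
import Vale.Agent.P237.Petty.Cor.MidHigh.Bulk
import Vale.Agent.P237.Petty.Cor.MillsUp
import Vale.Agent.P237.Petty.Cor.Bridge

/-!
# P237: the potentials of the cell between three and six over the dimension

The linear potential is a quartic in `y = m s ^ 2` continued by its tangent beyond the knot, the
pole part of the quadratic one grows linearly in `y` up to `40` and saturates beyond.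
-/

namespace Vale.Agent.P237.Petty.Cor.Mid36

open Set
open Ident (half rate)
open Vale.Agent.P100.Bernstein

variable {p : ℕ}

/-- Two functions with one value and one slope at the knot glue. -/
theorem hasDerivAt_glue {f g : ℝ → ℝ} {x0 d x : ℝ} (h0 : f x0 = g x0)
    (hf : x ≤ x0 → HasDerivAt f d x) (hg : x0 ≤ x → HasDerivAt g d x) :
    HasDerivAt (fun t => if t ≤ x0 then f t else g t) d x := by
  rcases lt_trichotomy x x0 with h | h | h
  · refine (hf h.le).congr_of_eventuallyEq ?_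
    filter_upwards [Iio_mem_nhds h] with t ht
    rw [if_pos ht.le]
  · subst h
    have h1 : HasDerivWithinAt (fun t => if t ≤ x then f t else g t) d (Iic x) x :=
      (hf le_rfl).hasDerivWithinAt.congr (fun t ht => if_pos ht) (if_pos le_rfl)
    have h2 : HasDerivWithinAt (fun t => if t ≤ x then f t else g t) d (Ici x) x := by
      refine (hg le_rfl).hasDerivWithinAt.congr (fun t ht => ?_) ?_
      · rcases eq_or_lt_of_le (show x ≤ t from ht) with rfl | ht'
        · simp [h0]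
        · rw [if_neg (not_le.2 ht')]
      · simp [h0]
    have h3 := h1.union h2
    rwa [Iic_union_Ici, hasDerivWithinAt_univ] at h3
  · refine (hg h.le).congr_of_eventuallyEq ?_
    filter_upwards [Ioi_mem_nhds h] with t ht
    rw [if_neg (not_le.2 ht)]

/-- The potential up to the knot, over `e`. -/
noncomputable def quart (y : ℝ) : ℝ :=
  y * (91 / 50 + y * (603 / 2000 + y * (-14943 / 100000 + 757 / 100000 * y)))

/-- The potential, over `e`. -/
noncomputable def plF (y : ℝ) : ℝ :=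
  if y ≤ 334 / 25 then quart y else -315694081407 / 4882812500 + 807540153 / 390625000 * y

/-- Its slope. -/
noncomputable def plF' (y : ℝ) : ℝ :=
  if y ≤ 334 / 25 then
    91 / 50 + y * (603 / 1000 + y * (-44829 / 100000 + 757 / 25000 * y))
  else 807540153 / 390625000

/-- The cut off of the pole part. -/
noncomputable def phiF (y : ℝ) : ℝ := if y ≤ 40 then y else 80 - 1600 / max y 40

/-- Its slope. -/
noncomputable def phiF' (y : ℝ) : ℝ := if y ≤ 40 then 1 else 1600 / y ^ 2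

theorem quart_knot :
    quart (334 / 25) = -315694081407 / 4882812500 + 807540153 / 390625000 * (334 / 25) := by
  norm_num [quart]

theorem continuous_plF : Continuous plF :=
  Continuous.if_le (by unfold quart; fun_prop) (by fun_prop) continuous_id continuous_const
    fun y (hy : y = 334 / 25) => by rw [hy]; exact quart_knot

theorem hasDerivAt_plF (y : ℝ) : HasDerivAt plF (plF' y) y := by
  have hg : HasDerivAt (fun y => -315694081407 / 4882812500 + 807540153 / 390625000 * y)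
      (807540153 / 390625000 : ℝ) y := by
    simpa using ((hasDerivAt_id y).const_mul (807540153 / 390625000 : ℝ)).const_add
      (-315694081407 / 4882812500 : ℝ)
  have hf : HasDerivAt quart
      (91 / 50 + y * (603 / 1000 + y * (-44829 / 100000 + 757 / 25000 * y))) y := by
    have h := (hasDerivAt_id y).mul (((hasDerivAt_id y).mul (((hasDerivAt_id y).mul
      (((hasDerivAt_id y).const_mul (757 / 100000 : ℝ)).const_add (-14943 / 100000))).const_add
        (603 / 2000))).const_add (91 / 50))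
    refine h.congr_deriv ?_
    simp only [id, Pi.mul_apply]
    ring
  refine hasDerivAt_glue quart_knot (fun h => ?_) (fun h => ?_)
  · rwa [plF', if_pos h]
  · rcases eq_or_lt_of_le h with h1 | h1
    · rw [plF', if_pos h1.ge, ← h1]
      subst h1
      norm_num at hg ⊢
      exact hg
    · rwa [plF', if_neg (not_le.2 h1)]

theorem continuous_phiF : Continuous phiF := by
  refine Continuous.if_le continuous_id ?_ continuous_id continuous_const
    fun y (hy : y = 40) => by subst hy; norm_num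
  exact continuous_const.sub (continuous_const.div (by fun_prop) fun y => by
    have := le_max_right y 40; linarith)

theorem hasDerivAt_phiF (y : ℝ) : HasDerivAt phiF (phiF' y) y := by
  rcases le_or_gt y 20 with h | h
  · refine ((hasDerivAt_id y).congr_of_eventuallyEq ?_).congr_deriv ?_
    · filter_upwards [Iio_mem_nhds (show y < 40 by linarith)] with t ht
      simp [phiF, le_of_lt (show t < 40 from ht)]
    · rw [phiF', if_pos (by linarith)]
  have e : phiF =ᶠ[nhds y] fun t => if t ≤ 40 then t else 80 - 1600 / t := by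
    filter_upwards with t
    simp only [phiF]
    split_ifs with ht
    · rfl
    · rw [max_eq_left (by linarith)]
  refine HasDerivAt.congr_of_eventuallyEq ?_ e
  have hg : HasDerivAt (fun t => 80 - 1600 / t) (1600 / y ^ 2) y := by
    have := ((hasDerivAt_inv (show y ≠ 0 by linarith)).const_mul (1600 : ℝ)).const_sub 80
    simp only [← div_eq_mul_inv] at this
    refine this.congr_deriv ?_
    ring
  refine hasDerivAt_glue (f := fun t => t) (g := fun t => 80 - 1600 / t) (by norm_num)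
    (fun h1 => ?_) (fun h1 => ?_)
  · rw [phiF', if_pos h1]; exact hasDerivAt_id y
  · rcases eq_or_lt_of_le h1 with h2 | h2
    · subst h2
      norm_num [phiF'] at hg ⊢
      exact hg
    · rwa [phiF', if_neg (not_le.2 h2)]

/-- The multiplier of the shadow. -/
noncomputable def gamC (p : ℕ) : ℝ := 203 / 100 * ((p : ℝ) + 1) / Ident.b0 p

/-- The multiplier of the Fisher excess. -/
noncomputable def nuC (p : ℕ) : ℝ :=
  203 / 200 - 47 / 100 / ((p : ℝ) + 1) - Ident.muMin p / 2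

/-- The linear coefficient of the potential. -/
noncomputable def potK (p : ℕ) (s : ℝ) : ℝ :=
  -(203 / 100) * (1 + s ^ 2 / 2 + 3 / 8 * s ^ 4 + 5 / 16 * s ^ 6) +
    1 / ((p : ℝ) + 1) * plF (((p : ℝ) + 1) * s ^ 2)

/-- Its derivative. -/
noncomputable def potK' (p : ℕ) (s : ℝ) : ℝ :=
  s * (-(203 / 100) * (1 + 3 / 2 * s ^ 2 + 15 / 8 * s ^ 4) +
    2 * plF' (((p : ℝ) + 1) * s ^ 2))

/-- The pole part of the square potential. -/
noncomputable def poleF (p : ℕ) (s : ℝ) : ℝ :=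
  67 / 50 * (1 - s ^ 2) + 47 / 1000 * phiF (((p : ℝ) + 1) * s ^ 2)

/-- The quadratic coefficient of the potential. -/
noncomputable def potB (p : ℕ) (s : ℝ) : ℝ := -poleF p s / s

/-- Its derivative. -/
noncomputable def potB' (p : ℕ) (s : ℝ) : ℝ :=
  (poleF p s - s * (-(67 / 25) * s +
    47 / 1000 * (phiF' (((p : ℝ) + 1) * s ^ 2) * (2 * ((p : ℝ) + 1) * s)))) / s ^ 2

theorem hasDerivAt_potK (p : ℕ) (s : ℝ) : HasDerivAt (potK p) (potK' p s) s := by
  have hy : HasDerivAt (fun s => ((p : ℝ) + 1) * s ^ 2) (2 * ((p : ℝ) + 1) * s) s := by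
    refine ((hasDerivAt_pow 2 s).const_mul ((p : ℝ) + 1)).congr_deriv ?_
    push_cast
    ring
  refine (((((((hasDerivAt_pow 2 s).div_const 2).const_add 1).add
    ((hasDerivAt_pow 4 s).const_mul (3 / 8))).add
    ((hasDerivAt_pow 6 s).const_mul (5 / 16))).const_mul (-(203 / 100 : ℝ))).add
    (((hasDerivAt_plF _).comp s hy).const_mul (1 / ((p : ℝ) + 1)))).congr_deriv ?_
  rw [potK']
  push_cast
  field_simp
  ring

theorem hasDerivAt_potB (p : ℕ) {s : ℝ} (hs : s ∈ Ioo (0 : ℝ) 1) :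
    HasDerivAt (potB p) (potB' p s) s := by
  have hy : HasDerivAt (fun s => ((p : ℝ) + 1) * s ^ 2) (2 * ((p : ℝ) + 1) * s) s := by
    refine ((hasDerivAt_pow 2 s).const_mul ((p : ℝ) + 1)).congr_deriv ?_
    push_cast
    ring
  have hP : HasDerivAt (poleF p) (-(67 / 25) * s +
      47 / 1000 * (phiF' (((p : ℝ) + 1) * s ^ 2) * (2 * ((p : ℝ) + 1) * s))) s := by
    refine ((((hasDerivAt_pow 2 s).const_sub 1).const_mul (67 / 50 : ℝ)).add
      (((hasDerivAt_phiF _).comp s hy).const_mul (47 / 1000 : ℝ))).congr_deriv ?_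
    push_cast
    ring
  refine (hP.neg.div (hasDerivAt_id s) hs.1.ne').congr_deriv ?_
  simp only [potB', id, Pi.neg_apply]
  field_simp
  ring

theorem muMin_bounds (hp : 98 ≤ p) :
    3 / 4 - 288 / 100 / ((p : ℝ) + 1) ≤ Ident.muMin p ∧
      Ident.muMin p ≤ 3 / 4 - 255 / 100 / ((p : ℝ) + 1) := by
  obtain ⟨j, rfl⟩ : ∃ j, p = j + 1 := ⟨p - 1, by omega⟩
  have hj : (97 : ℝ) ≤ j := by
    have : 97 ≤ j := by omega
    exact_mod_cast this
  have hb := Ident.b0_pos (j + 1)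
  have h1 := (b0_sq_bounds (j + 1)).1
  have h2 := LargeN.ratSq_succ_le j
  rw [Centre.ratSq_eq, LargeN.low, div_div_eq_mul_div, div_pow, div_mul_eq_mul_div, div_div,
    le_div_iff₀ (by positivity)] at h2
  rw [div_le_iff₀ (by positivity)] at h1
  push_cast at h1 h2 ⊢
  set B := Ident.b0 (j + 1) ^ 2 with hB
  have hB0 : 0 < B := by positivity
  have e : Ident.muMin (j + 1) =
      ((j : ℝ) + 3) * ((j : ℝ) + 1) * (((j : ℝ) + 5) * (1 - B) - 1) / (2 * ((j : ℝ) + 5) * B) := by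
    rw [Ident.muMin, hB]
    push_cast
    field_simp
    ring
  obtain ⟨k, hk, hjk⟩ : ∃ k : ℝ, 0 ≤ k ∧ (j : ℝ) = k + 97 := ⟨(j : ℝ) - 97, by linarith, by ring⟩
  rw [e]
  clear_value B
  rw [hjk] at h1 h2 ⊢
  constructor
  · rw [le_div_iff₀ (by positivity), sub_mul, div_mul_eq_mul_div _ (k + 97 + 1 + 1),
      sub_le_iff_le_add, ← sub_le_iff_le_add', le_div_iff₀ (by positivity)]
    nlinarith [mul_le_mul_of_nonneg_left h2 hk, mul_le_mul_of_nonneg_left h2 (mul_nonneg hk hk),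
      mul_le_mul_of_nonneg_left h2 (mul_nonneg (mul_nonneg hk hk) hk)]
  · rw [div_le_iff₀ (by positivity), sub_mul, div_mul_eq_mul_div _ (k + 97 + 1 + 1),
      le_sub_iff_add_le, ← le_sub_iff_add_le', div_le_iff₀ (by positivity)]
    nlinarith [mul_le_mul_of_nonneg_left h1 hk, mul_le_mul_of_nonneg_left h1 (mul_nonneg hk hk),
      mul_le_mul_of_nonneg_left h1 (mul_nonneg (mul_nonneg hk hk) hk)]

theorem nuC_bounds (hp : 98 ≤ p) :
    16 / 25 + 161 / 200 * (1 / ((p : ℝ) + 1)) ≤ nuC p ∧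
      nuC p ≤ 16 / 25 + 97 / 100 * (1 / ((p : ℝ) + 1)) := by
  obtain ⟨h1, h2⟩ := muMin_bounds hp
  rw [nuC]
  constructor <;> linarith [mul_one_div (288 / 100 : ℝ) ((p : ℝ) + 1),
    mul_one_div (255 / 100 : ℝ) ((p : ℝ) + 1), mul_one_div (47 / 100 : ℝ) ((p : ℝ) + 1)]

theorem gamC_pos (p : ℕ) : 0 < gamC p := by
  have := Ident.b0_pos p
  unfold gamC
  positivity

/-- The point `(y, e, 40 / y)` of an abscissa. -/
noncomputable def pt (p : ℕ) (s : ℝ) : List ℝ :=
  [((p : ℝ) + 1) * s ^ 2, 1 / ((p : ℝ) + 1), 40 / (((p : ℝ) + 1) * s ^ 2)]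

/-- The region of the certificates. -/
theorem pt_mem (hp : 98 ≤ p) (s : ℝ) :
    0 ≤ ((p : ℝ) + 1) * s ^ 2 ∧ 0 < 1 / ((p : ℝ) + 1) ∧ 1 / ((p : ℝ) + 1) ≤ 1 / 99 ∧
      ((p : ℝ) + 1) * s ^ 2 * (1 / ((p : ℝ) + 1)) = s ^ 2 := by
  have h : (98 : ℝ) ≤ p := by exact_mod_cast hp
  refine ⟨by positivity, by positivity, one_div_le_one_div_of_le (by norm_num) (by linarith), ?_⟩
  field_simp

/-- The reciprocal of the half circle between its Taylor polynomials. -/
theorem inv_arc_bounds {s : ℝ} (hs : s ∈ Ioo (0 : ℝ) 1) (hz : s ^ 2 ≤ 2 / 5) :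
    1 + 1 / 2 * s ^ 2 + 3 / 8 * (s ^ 2) ^ 2 + 5 / 16 * (s ^ 2) ^ 3 ≤ 1 / arc s ∧
      1 / arc s ≤ 1 + 1 / 2 * s ^ 2 + 3 / 8 * (s ^ 2) ^ 2 + 5 / 16 * (s ^ 2) ^ 3 +
        43 / 100 * (s ^ 2) ^ 4 := by
  have hc : 0 < arc s := arc_pos ⟨by linarith [hs.1], hs.2⟩
  have hc2 : arc s ^ 2 = 1 - s ^ 2 := Real.sq_sqrt (by nlinarith [hs.1, hs.2])
  have hz0 : 0 ≤ s ^ 2 := sq_nonneg s
  obtain ⟨z, rfl⟩ : ∃ z, s ^ 2 = z := ⟨_, rfl⟩
  constructor
  · rw [le_div_iff₀ hc]
    refine (pow_le_pow_iff_left₀ (by positivity) zero_le_one two_ne_zero).1 ?_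
    rw [mul_pow, hc2]
    nlinarith [mul_nonneg (mul_nonneg hz0 hz0) (mul_nonneg hz0 hz0), pow_nonneg hz0 5,
      pow_nonneg hz0 6, pow_nonneg hz0 7]
  · rw [div_le_iff₀ hc]
    refine (pow_le_pow_iff_left₀ zero_le_one (by positivity) two_ne_zero).1 ?_
    rw [mul_pow, hc2]
    nlinarith [mul_nonneg (pow_nonneg hz0 4) (sub_nonneg.2 hz),
      mul_nonneg (pow_nonneg hz0 5) (sub_nonneg.2 hz), mul_nonneg (pow_nonneg hz0 6) (sub_nonneg.2 hz),
      mul_nonneg (pow_nonneg hz0 7) (sub_nonneg.2 hz),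
      mul_nonneg (pow_nonneg hz0 8) (sub_nonneg.2 hz)]

/-- The coefficient of `d`, times `c / s`. -/
noncomputable def dhF (p : ℕ) (s : ℝ) : ℝ :=
  (1 - s ^ 2) * (-(203 / 50) * (1 / 2 + 3 / 4 * s ^ 2 + 15 / 16 * (s ^ 2) ^ 2) +
      2 * plF' (((p : ℝ) + 1) * s ^ 2) - 103 / 20 - -(141 / 50) * (1 / ((p : ℝ) + 1))) +
    203 / 100 * (((p : ℝ) + 1) * s ^ 2 * (3 / 2 + 3 / 8 * s ^ 2 + 5 / 16 * (s ^ 2) ^ 2)) -
    plF (((p : ℝ) + 1) * s ^ 2)

/-- The coefficient of `(d / s) ^ 2`, times `c`. -/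
noncomputable def bF (p : ℕ) (s : ℝ) : ℝ :=
  (1 - s ^ 2) * (67 / 50 * (1 + ((p : ℝ) + 1) * s ^ 2 + s ^ 2) -
      (16 / 25 + 97 / 100 * (1 / ((p : ℝ) + 1))) * (((p : ℝ) + 1) * s ^ 2 + 3 * s ^ 2)) +
    47 / 1000 * ((1 - s ^ 2) * (phiF (((p : ℝ) + 1) * s ^ 2) -
        2 * (((p : ℝ) + 1) * s ^ 2 * phiF' (((p : ℝ) + 1) * s ^ 2))) +
      ((p : ℝ) + 1) * s ^ 2 * phiF (((p : ℝ) + 1) * s ^ 2))

theorem potD_eq {s : ℝ} (hs : s ∈ Ioo (0 : ℝ) 1) :
    cancelD p (nuC p) (potK p) (potK' p) s = s * dhF p s / (1 - s ^ 2) := by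
  have hc : 1 - s ^ 2 ≠ 0 := by nlinarith [hs.1, hs.2]
  have hb := (Ident.b0_pos p).ne'
  have h4 : ((p : ℝ) + 4) ≠ 0 := by positivity
  have e : sqCoef p + ((p : ℝ) + 4) * (nuC p - nuS p) =
      ((p : ℝ) + 4) * (203 / 200 - 47 / 100 / ((p : ℝ) + 1)) := by
    rw [nuC, nuS, sqCoef]
    field_simp
    ring
  have hm : ((p : ℝ) + 1) ≠ 0 := by positivity
  rw [cancelD, e, potRate, eq_div_iff hc, potK, potK', dhF]
  field_simp
  ring

theorem potDD_ge (hp : 98 ≤ p) {s v : ℝ} (hs : s ∈ Ioo (0 : ℝ) 1) (hv : 0 < v) :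
    bF p s / (1 - s ^ 2) / s ^ 2 ≤ cancelDD p (nuC p) 1 (potB p) (potB' p) s v := by
  obtain ⟨hn1, hn2⟩ := nuC_bounds hp
  have hn0 : 0 ≤ nuC p := le_trans (by positivity) hn1
  have hs0 := hs.1.ne'
  have hc0 : 0 < 1 - s ^ 2 := by nlinarith [hs.1, hs.2]
  have hm : ((p : ℝ) + 1) ≠ 0 := by positivity
  have e : potB' p s - potRate p s * potB p s =
      (bF p s + (1 - s ^ 2) * ((16 / 25 + 97 / 100 * (1 / ((p : ℝ) + 1))) *
        (((p : ℝ) + 1) * s ^ 2 + 3 * s ^ 2))) / (1 - s ^ 2) / s ^ 2 := by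
    rw [potB', potB, potRate, bF, poleF]
    field_simp
    ring
  rw [cancelDD, e]
  have h2 : 0 ≤ nuC p * (2 * 1 * (1 + 1) / v) := by positivity
  have h3 := mul_le_mul_of_nonneg_right hn2 (show 0 ≤ (p : ℝ) + 4 by positivity)
  have e2 : (bF p s + (1 - s ^ 2) * ((16 / 25 + 97 / 100 * (1 / ((p : ℝ) + 1))) *
        (((p : ℝ) + 1) * s ^ 2 + 3 * s ^ 2))) / (1 - s ^ 2) / s ^ 2 =
      bF p s / (1 - s ^ 2) / s ^ 2 +
        (16 / 25 + 97 / 100 * (1 / ((p : ℝ) + 1))) * ((p : ℝ) + 4) := by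
    field_simp
    ring
  rw [e2]
  linarith

/-- The cancelled cell with the coefficients of the bulk, in `δ = (t - s) / s`. -/
theorem base_le (hp : 98 ≤ p) {top ell s t a r q : ℝ} (h : FlatState p top s t a r q)
    (hz : s ^ 2 ≤ 2 / 5) :
    ell * wS p (arc s) +
        (203 / 100 * (1 / arc s - (1 + 1 / 2 * s ^ 2 + 3 / 8 * (s ^ 2) ^ 2 + 5 / 16 * (s ^ 2) ^ 3)) +
          1 / ((p : ℝ) + 1) * plF (((p : ℝ) + 1) * s ^ 2)) * (1 / r - 1) +
        (1 / ((p : ℝ) + 1) * (((p : ℝ) + 1) * s ^ 2) * dhF p s / (1 - s ^ 2) -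
          2 * poleF p s * (1 / r - 1)) * ((t - s) / s) +
        (4 * (16 / 25 + 161 / 200 * (1 / ((p : ℝ) + 1))) * (1 - s ^ 2) -
          203 / 100 * (1 + 1 / 2 * s ^ 2 + 3 / 8 * (s ^ 2) ^ 2 + 5 / 16 * (s ^ 2) ^ 3 +
            43 / 100 * (s ^ 2) ^ 4) * ((2 * (1 / r) + 1) / (2 * (1 / r + 2)))) *
          ((1 / r - 1) ^ 2 / (1 / r)) +
        bF p s / (1 - s ^ 2) * ((t - s) / s) ^ 2 ≤
      cancelExpr p (gamC p) (nuC p) ell (fun s t => s + 1 * (s - t)) (fun _ _ => 1 + 1)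
        (fun _ _ => -1) (quadPot (potK p) (potB p)) (quadPotS (potK p) (potK' p) (potB p) (potB' p))
        (quadPotT (potK p) (potB p)) s t a r := by
  have hsm := h.state.s_mem
  have hv : 0 < 1 / r := by have := h.state.rate_pos; positivity
  refine le_trans ?_ (cancelExpr_quad_ge (gamC_pos p).le (potK p) (potK' p) (potB p) (potB' p) h)
  have hb := (Ident.b0_pos p).ne'
  have hm : ((p : ℝ) + 1) ≠ 0 := by positivity
  have hc : 0 < 1 - s ^ 2 := by linarith
  have hs0 := hsm.1.ne'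
  have eG : gamC p * Ident.b0 p / ((p : ℝ) + 1) / arc s = 203 / 100 * (1 / arc s) := by
    rw [gamC]; field_simp
  obtain ⟨-, hh⟩ := inv_arc_bounds hsm hz
  have hA : 4 * (16 / 25 + 161 / 200 * (1 / ((p : ℝ) + 1))) * (1 - s ^ 2) -
          203 / 100 * (1 + 1 / 2 * s ^ 2 + 3 / 8 * (s ^ 2) ^ 2 + 5 / 16 * (s ^ 2) ^ 3 +
            43 / 100 * (s ^ 2) ^ 4) * ((2 * (1 / r) + 1) / (2 * (1 / r + 2))) ≤
      cancelUU p (gamC p) (nuC p) 1 s (1 / r) := by
    rw [cancelUU, eG]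
    have h1 := mul_le_mul_of_nonneg_right (nuC_bounds hp).1 hc.le
    have h2 := mul_le_mul_of_nonneg_right hh
      (show 0 ≤ (2 * (1 / r) + 1) / (2 * (1 / r + 2)) by positivity)
    linarith
  have hU := mul_le_mul_of_nonneg_right hA (show 0 ≤ (1 / r - 1) ^ 2 / (1 / r) by positivity)
  have hD := mul_le_mul_of_nonneg_right (potDD_ge hp hsm hv) (sq_nonneg (t - s))
  have eB : bF p s / (1 - s ^ 2) * ((t - s) / s) ^ 2 =
      bF p s / (1 - s ^ 2) / s ^ 2 * (t - s) ^ 2 := by ring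
  have eD : (1 / ((p : ℝ) + 1) * (((p : ℝ) + 1) * s ^ 2) * dhF p s / (1 - s ^ 2) -
        2 * poleF p s * (1 / r - 1)) * ((t - s) / s) =
      cancelD p (nuC p) (potK p) (potK' p) s * (t - s) +
        cancelUD (nuC p) 1 (potB p) s (1 / r) * ((1 / r - 1) * (t - s)) := by
    rw [potD_eq hsm, cancelUD, potB]
    field_simp
    ring
  have eU : (203 / 100 * (1 / arc s - (1 + 1 / 2 * s ^ 2 + 3 / 8 * (s ^ 2) ^ 2 +
        5 / 16 * (s ^ 2) ^ 3)) + 1 / ((p : ℝ) + 1) * plF (((p : ℝ) + 1) * s ^ 2)) =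
      cancelU p (gamC p) (potK p) s := by
    rw [cancelU, eG, potK]; ring
  rw [eB, eD, eU]
  linarith

end Vale.Agent.P237.Petty.Cor.Mid36
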