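import Vale.Agent.P237.Petty.Cor.Mid36.Poly

/-!
# P237: the sign conditions of the cell between three and six, checked by the kernel
-/

namespace Vale.Agent.P237.Petty.Cor.Mid36

open Vale.Agent.P100.Bernstein

def cert0_B :
    onBox (xBc xB0 xO - .frac 1 100) 0 3 4 .leaf = true := by
  decide +kernel

def cert0_A :
    onBox (xA1 xO) 0 3 4 .leaf = true := by
  decide +kernel

def cert0_K :
    onBox (xK1 xGa xB0 xO - .frac 1 1000) 0 3 4 .leaf = true := by
  decide +kernel

def cert0_P :
    onBox (xP1 xGa xB0 xPlA xDhA xO) 0 3 4 (.split 0 .leaf .leaf) = true := by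
  decide +kernel

def cert0_K2 :
    onBox (xK2 xGa xB0 xO xW0 - .frac 1 1000) 0 3 4 .leaf = true := by
  decide +kernel

def cert0_P2 :
    onBox (xP2 xGa xB0 xPlA xDhA xO xW0) 0 3 4 (.split 0 (.split 0 .leaf .leaf) .leaf) = true := by
  decide +kernel

def cert1_B :
    onBox (xBc xB0 xO - .frac 1 100) 75 196 100 .leaf = true := by
  decide +kernel

def cert1_A :
    onBox (xA1 xO) 75 196 100 .leaf = true := by
  decide +kernel

def cert1_K :
    onBox (xK1 xGa xB0 xO - .frac 1 1000) 75 196 100 .leaf = true := by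
  decide +kernel

def cert1_P :
    onBox (xP1 xGa xB0 xPlA xDhA xO) 75 196 100 (.split 0 .leaf .leaf) = true := by
  decide +kernel

def cert1_L2 :
    onBox (xL2 xGa xB0 xPlA xDhA xO) 75 196 100 .leaf = true := by
  decide +kernel

def cert1_Q2 :
    onBox (xQ2 xB0 xDhA xO) 75 196 100 .leaf = true := by
  decide +kernel

def cert1_E2 :
    onBox (xEnd0 xGa xB0 xPlA xDhA xO xW0) 75 196 100 .leaf = true := by
  decide +kernel

def cert2_B :
    onBox (xBc xB0 xO - .frac 1 100) 196 495 100 .leaf = true := by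
  decide +kernel

def cert2_A :
    onBox (xA1 xO) 196 495 100 .leaf = true := by
  decide +kernel

def cert2_K :
    onBox (xK1 xGa xB0 xO - .frac 1 1000) 196 495 100 .leaf = true := by
  decide +kernel

def cert2_P :
    onBox (xP1 xGa xB0 xPlA xDhA xO) 196 495 100 (.split 0 (.split 0 .leaf .leaf) .leaf) = true := by
  decide +kernel

def cert2_L2 :
    onBox (xL2 xGa xB0 xPlA xDhA xO) 196 495 100 .leaf = true := by
  decide +kernel

def cert2_Q2 :
    onBox (xQ2 xB0 xDhA xO) 196 495 100 .leaf = true := by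
  decide +kernel

def cert2_E2 :
    onBox (xEnd xGa xB0 xPlA xDhA xO xW1) 196 495 100 .leaf = true := by
  decide +kernel

def cert2_VW :
    onBox (xWok xW1) 196 495 100 .leaf = true := by
  decide +kernel

def cert2_V1 :
    onBox (xW1 - xE) 196 495 100 .leaf = true := by
  decide +kernel

def cert3_B :
    onBox (xBc xB0 xMu1 - .frac 1 100) 99 154 20 .leaf = true := by
  decide +kernel

def cert3_A :
    onBox (xA1 xMu1) 99 154 20 .leaf = true := by
  decide +kernel

def cert3_K :
    onBox (xK1 xGa xB0 xMu1 - .frac 1 1000) 99 154 20 .leaf = true := by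
  decide +kernel

def cert3_P :
    onBox (xP1 xGa xB0 xPlA xDhA xMu1) 99 154 20 (.split 0 .leaf (.split 0 (.split 0 .leaf .leaf)
    .leaf)) = true := by
  decide +kernel

def cert3_L2 :
    onBox (xL2 xGa xB0 xPlA xDhA xMu1) 99 154 20 .leaf = true := by
  decide +kernel

def cert3_Q2 :
    onBox (xQ2 xB0 xDhA xMu1) 99 154 20 .leaf = true := by
  decide +kernel

def cert3_E2 :
    onBox (xEnd xGa xB0 xPlA xDhA xMu1 xW2) 99 154 20 .leaf = true := by
  decide +kernel

def cert3_VW :
    onBox (xWok xW2) 99 154 20 .leaf = true := by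
  decide +kernel

def cert3_V1 :
    onBox (xW2 - xE) 99 154 20 .leaf = true := by
  decide +kernel

def cert4_B :
    onBox (xBc xB0 xMu1 - .frac 1 100) 385 399 50 .leaf = true := by
  decide +kernel

def cert4_A :
    onBox (xA1 xMu1) 385 399 50 .leaf = true := by
  decide +kernel

def cert4_K :
    onBox (xK1 xGa xB0 xMu1 - .frac 1 1000) 385 399 50 .leaf = true := by
  decide +kernel

def cert4_P :
    onBox (xP1b xGa xB0 xPlA xDhA xMu1) 385 399 50 .leaf = true := by
  decide +kernel

def cert4_D :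
    onBox (xDhA - xMu1) 385 399 50 .leaf = true := by
  decide +kernel

def cert4_L2 :
    onBox (xL2 xGa xB0 xPlA xDhA xMu1) 385 399 50 .leaf = true := by
  decide +kernel

def cert4_Q2 :
    onBox (xQ2 xB0 xDhA xMu1) 385 399 50 .leaf = true := by
  decide +kernel

def cert4_E2 :
    onBox (xEnd xGa xB0 xPlA xDhA xMu1 xW2) 385 399 50 .leaf = true := by
  decide +kernel

def cert4_VW :
    onBox (xWok xW2) 385 399 50 .leaf = true := by
  decide +kernel

def cert4_V1 :
    onBox (xW2 - xE) 385 399 50 .leaf = true := by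
  decide +kernel

def cert5_B :
    onBox (xBc xB0 xMu2 - .frac 1 100) 399 668 50 .leaf = true := by
  decide +kernel

def cert5_A :
    onBox (xA1 xMu2) 399 668 50 .leaf = true := by
  decide +kernel

def cert5_K :
    onBox (xK1 xGa xB0 xMu2 - .frac 1 1000) 399 668 50 .leaf = true := by
  decide +kernel

def cert5_P :
    onBox (xP1b xGa xB0 xPlA xDhA xMu2) 399 668 50 .leaf = true := by
  decide +kernel

def cert5_D :
    onBox (xDhA - xMu2) 399 668 50 (.split 0 (.split 0 .leaf .leaf) .leaf) = true := by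
  decide +kernel

def cert5_L2 :
    onBox (xL2 xGa xB0 xPlA xDhA xMu2) 399 668 50 .leaf = true := by
  decide +kernel

def cert5_Q2 :
    onBox (xQ2 xB0 xDhA xMu2) 399 668 50 .leaf = true := by
  decide +kernel

def cert5_E2 :
    onBox (xEnd xGa xB0 xPlA xDhA xMu2 xW3) 399 668 50 (.split 0 .leaf (.split 0 (.split 0 .leaf
    (.split 0 .leaf .leaf)) .leaf)) = true := by
  decide +kernel

def cert5_VW :
    onBox (xWok xW3) 399 668 50 (.split 0 .leaf .leaf) = true := by
  decide +kernel

def cert5_V1 :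
    onBox (xW3 - xE) 399 668 50 .leaf = true := by
  decide +kernel

def cert6_B :
    onBox (xBc xB0 xMu3 - .frac 1 100) 334 400 25 .leaf = true := by
  decide +kernel

def cert6_A :
    onBox (xA1 xMu3) 334 400 25 .leaf = true := by
  decide +kernel

def cert6_K :
    onBox (xK1 xGa xB0 xMu3 - .frac 1 1000) 334 400 25 .leaf = true := by
  decide +kernel

def cert6_P :
    onBox (xP1b xGa xB0 xPlB xDhB xMu3) 334 400 25 .leaf = true := by
  decide +kernel

def cert6_D :
    onBox (xDhB - xMu3) 334 400 25 .leaf = true := by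
  decide +kernel

def cert6_L2 :
    onBox (xL2 xGa xB0 xPlB xDhB xMu3) 334 400 25 .leaf = true := by
  decide +kernel

def cert6_Q2 :
    onBox (xQ2 xB0 xDhB xMu3) 334 400 25 .leaf = true := by
  decide +kernel

def cert6_E2 :
    onBox (xEnd xGa xB0 xPlB xDhB xMu3 xW4) 334 400 25 .leaf = true := by
  decide +kernel

def cert6_VW :
    onBox (xWok xW4) 334 400 25 .leaf = true := by
  decide +kernel

def cert6_V1 :
    onBox (xW4 - xE) 334 400 25 .leaf = true := by
  decide +kernel

def cert7_B :
    onBox (xBc xB0 xO - .frac 1 100) 16 28 1 .leaf = true := by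
  decide +kernel

def cert7_A :
    onBox (xA1 xO) 16 28 1 .leaf = true := by
  decide +kernel

def cert7_K :
    onBox (xK1 xGa xB0 xO - .frac 1 1000) 16 28 1 .leaf = true := by
  decide +kernel

def cert7_P :
    onBox (xP1b xGa xB0 xPlB xDhB xO) 16 28 1 .leaf = true := by
  decide +kernel

def cert7_D :
    onBox (xDhB - xO) 16 28 1 .leaf = true := by
  decide +kernel

def cert7_B2 :
    onBox (xBc xB0 xMu3 - .frac 1 100) 16 28 1 .leaf = true := by
  decide +kernel

def cert7_L2 :
    onBox (xL2 xGa xB0 xPlB xDhB xMu3) 16 28 1 .leaf = true := by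
  decide +kernel

def cert7_Q2 :
    onBox (xQ2 xB0 xDhB xMu3) 16 28 1 (.split 0 .leaf (.split 0 (.split 0 (.split 0 (.split 0 .leaf
    .leaf) .leaf) (.split 0 (.split 0 .leaf .leaf) .leaf)) .leaf)) = true := by
  decide +kernel

def cert7_E2 :
    onBox (xEnd xGa xB0 xPlB xDhB xMu3 xW5) 16 28 1 .leaf = true := by
  decide +kernel

def cert7_VW :
    onBox (xWok xW5) 16 28 1 .leaf = true := by
  decide +kernel

def cert7_V1 :
    onBox (xW5 - xE) 16 28 1 .leaf = true := by
  decide +kernel

def cert8_B :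
    onBox (xBc xB0 xO - .frac 1 100) 28 40 1 .leaf = true := by
  decide +kernel

def cert8_A :
    onBox (xA1 xO) 28 40 1 .leaf = true := by
  decide +kernel

def cert8_K :
    onBox (xK1 xGa xB0 xO - .frac 1 1000) 28 40 1 .leaf = true := by
  decide +kernel

def cert8_P :
    onBox (xP1b xGa xB0 xPlB xDhB xO) 28 40 1 .leaf = true := by
  decide +kernel

def cert8_D :
    onBox (xDhB - xO) 28 40 1 .leaf = true := by
  decide +kernel

def cert8_B2 :
    onBox (xBc xB0 xMu3 - .frac 1 100) 28 40 1 .leaf = true := by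
  decide +kernel

def cert8_L2 :
    onBox (xL2 xGa xB0 xPlB xDhB xMu3) 28 40 1 .leaf = true := by
  decide +kernel

def cert8_Q2 :
    onBox (xQ2 xB0 xDhB xMu3) 28 40 1 .leaf = true := by
  decide +kernel

def cert8_E2 :
    onBox (xEnd xGa xB0 xPlB xDhB xMu3 xW6) 28 40 1 .leaf = true := by
  decide +kernel

def cert8_VW :
    onBox (xWok xW6) 28 40 1 .leaf = true := by
  decide +kernel

def cert8_V1 :
    onBox (xW6 - xE) 28 40 1 .leaf = true := by
  decide +kernel

def cert9_B :
    onFar (xBc xB0F xO - .frac 1 100) 2 5 .leaf = true := by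
  decide +kernel

def cert9_A :
    onFar (xA1 xO) 2 5 .leaf = true := by
  decide +kernel

def cert9_K :
    onFar (xK1 xGaF xB0F xO - .frac 1 1000) 2 5 .leaf = true := by
  decide +kernel

def cert9_P :
    onFar (xP1b xGaF xB0F xPlB xDhB xO) 2 5 (.split 1 .leaf (.split 1 .leaf (.split 1 .leaf .leaf))) = true := by
  decide +kernel

def cert9_D :
    onFar (xDhB - xO) 2 5 .leaf = true := by
  decide +kernel

def cert9_B2 :
    onFar (xBc xB0F xMu3 - .frac 1 100) 2 5 .leaf = true := by
  decide +kernel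

def cert9_L2 :
    onFar (xL2 xGaF xB0F xPlB xDhB xMu3) 2 5 .leaf = true := by
  decide +kernel

def cert9_Q2 :
    onFar (xQ2 xB0F xDhB xMu3) 2 5 (.split 1 .leaf (.split 1 .leaf (.split 1 .leaf (.split 1 .leaf
    (.split 1 (.split 1 .leaf (.split 1 .leaf .leaf)) .leaf))))) = true := by
  decide +kernel

def cert9_E2 :
    onFar (xEnd xGaF xB0F xPlB xDhB xMu3 xW7) 2 5 .leaf = true := by
  decide +kernel

def cert9_VW :
    onFar (xWok xW7) 2 5 (.split 1 (.split 0 (.split 1 (.split 0 .leaf .leaf) .leaf) .leaf) .leaf) = true := by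
  decide +kernel

def cert9_V1 :
    onFar (xW7 - xE) 2 5 .leaf = true := by
  decide +kernel

def certR :
    onBox (xR) 0 40 1 (.split 0 (.split 0 (.split 0 .leaf .leaf) .leaf) .leaf) = true := by
  decide +kernel

def certR_far :
    onFar (xR) 1 1 (.split 1 .leaf (.split 1 .leaf (.split 1 .leaf (.split 1 .leaf .leaf)))) = true := by
  decide +kernel

def certV :
    onBox (xVok) 0 49 25 .leaf = true := by
  decide +kernel

end Vale.Agent.P237.Petty.Cor.Mid36
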