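import Vale.Agent.P237.Petty.Cor.Mid36.Cuts

/-!
# P237: the mean of a hinge

The hinge `(m s ^ 2 - y₀)₊` against the power of the half circle is a boundary term less a multiple
of the mass above the knee.
-/

namespace Vale.Agent.P237.Petty.Cor.Mid36

open MeasureTheory Set intervalIntegral
open Ident (half)
open Lift (circHigh)

variable {p : ℕ}

/-- The hinge at `y₀`. -/
noncomputable def hinge (p : ℕ) (y0 s : ℝ) : ℝ := max 0 (((p : ℝ) + 1) * s ^ 2 - y0)

theorem continuous_hinge (p : ℕ) (y0 : ℝ) : Continuous (hinge p y0) := by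
  unfold hinge; fun_prop

theorem hinge_nonneg (p : ℕ) (y0 s : ℝ) : 0 ≤ hinge p y0 s := le_max_left _ _

/-- The logarithm below the circle, to second order. -/
theorem one_sub_le_exp_two {z : ℝ} (h0 : 0 ≤ z) (h1 : z < 1) :
    1 - z ≤ Real.exp (-z - z ^ 2 / 2) := by
  have hz : 0 < 1 - z := by linarith
  have h := pade_le_log (inv_pos.2 hz)
  rw [Real.log_inv] at h
  have e : ((1 - z)⁻¹ - 1) * (1 + 5 * (1 - z)⁻¹) / ((1 - z)⁻¹ * (4 + 2 * (1 - z)⁻¹)) =
      z * (6 - z) / (6 - 4 * z) := by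
    have : 6 - 4 * z ≠ 0 := by linarith
    have : (1 - z) * 4 + 2 ≠ 0 := by linarith
    field_simp
    rw [eq_div_iff (by linarith)]
    ring
  rw [e] at h
  have h2 : z + z ^ 2 / 2 ≤ z * (6 - z) / (6 - 4 * z) := by
    rw [le_div_iff₀ (by linarith)]
    nlinarith [mul_nonneg (mul_nonneg h0 h0) h0]
  calc 1 - z = Real.exp (Real.log (1 - z)) := (Real.exp_log hz).symm
    _ ≤ Real.exp (-z - z ^ 2 / 2) := Real.exp_le_exp.2 (by linarith)

/-- The power at the knee. -/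
theorem arc_pow_knee {s y : ℝ} (hs : s ∈ Ico (0 : ℝ) 1) (hy : ((p : ℝ) + 1) * s ^ 2 = y) :
    arc s ^ (p + 1) ≤ Real.exp (-(y / 2)) / (1 + y ^ 2 / (4 * ((p : ℝ) + 1))) := by
  have hm : (0 : ℝ) < (p : ℝ) + 1 := by positivity
  have hz : s ^ 2 < 1 := by nlinarith [hs.1, hs.2]
  have h1 : arc s ≤ Real.exp ((-(s ^ 2) - (s ^ 2) ^ 2 / 2) / 2) := by
    rw [Real.exp_half, arc]
    exact Real.sqrt_le_sqrt (one_sub_le_exp_two (sq_nonneg s) hz)
  refine (pow_le_pow_left₀ (Real.sqrt_nonneg _) h1 _).trans ?_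
  rw [← Real.exp_nat_mul,
    show ((p + 1 : ℕ) : ℝ) * ((-(s ^ 2) - (s ^ 2) ^ 2 / 2) / 2) =
      -(y / 2) + -(y ^ 2 / (4 * ((p : ℝ) + 1))) by rw [← hy]; push_cast; field_simp; ring,
    Real.exp_add, Real.exp_neg (y ^ 2 / _), div_eq_mul_inv (Real.exp (-(y / 2)))]
  refine mul_le_mul_of_nonneg_left (inv_anti₀ (by positivity) ?_) (Real.exp_pos _).le
  linarith [Real.add_one_le_exp (y ^ 2 / (4 * ((p : ℝ) + 1)))]

/-- The mean of the hinge against its boundary term. -/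
theorem integral_hinge_le {y0 : ℝ} (hy : 1 ≤ y0) (hym : y0 < (p : ℝ) + 1) :
    ∫ s in (0 : ℝ)..1, arc s ^ (p + 1) * hinge p y0 s ≤
      √(y0 / ((p : ℝ) + 1)) * ((1 - y0 / ((p : ℝ) + 1)) *
        (Real.exp (-(y0 / 2)) / (1 + y0 ^ 2 / (4 * ((p : ℝ) + 1))))) *
        ((2 * ((p : ℝ) + 1) - y0) /
          (((p : ℝ) + 4) * (y0 + 2 * (y0 / ((p : ℝ) + 1)) + 1))) := by
  have hm : (0 : ℝ) < (p : ℝ) + 1 := by positivity
  set u := √(y0 / ((p : ℝ) + 1)) with hu
  have hu0 : 0 < u := Real.sqrt_pos.2 (div_pos (by linarith) hm)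
  have hu2 : u ^ 2 = y0 / ((p : ℝ) + 1) := Real.sq_sqrt (div_nonneg (by linarith) hm.le)
  have hu1 : u < 1 := by
    have : y0 / ((p : ℝ) + 1) < 1 := (div_lt_one hm).2 hym
    nlinarith
  have hmu : ((p : ℝ) + 1) * u ^ 2 = y0 := by rw [hu2]; field_simp
  have hi : ∀ a b : ℝ, IntervalIntegrable (fun s => arc s ^ (p + 1) * hinge p y0 s) volume a b :=
    fun a b => ((continuous_arc.pow _).mul (continuous_hinge p y0)).intervalIntegrable _ _
  have hA : ∫ s in (0 : ℝ)..u, arc s ^ (p + 1) * hinge p y0 s = 0 := by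
    rw [intervalIntegral.integral_congr (g := fun _ => (0 : ℝ)) fun s hs => ?_]
    · simp
    · rw [uIcc_of_le hu0.le] at hs
      have : ((p : ℝ) + 1) * s ^ 2 ≤ y0 := by
        rw [← hmu]
        exact mul_le_mul_of_nonneg_left (pow_le_pow_left₀ hs.1 hs.2 2) hm.le
      simp [hinge, max_eq_left (sub_nonpos.2 this)]
  set F : ℝ → ℝ := fun s => -(((p : ℝ) + 1) / ((p : ℝ) + 4)) * (s * arc s ^ (p + 3)) with hF
  have hac := continuous_arc
  have hFc : Continuous F := by rw [hF]; fun_prop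
  have hB : ∫ s in u..1, arc s ^ (p + 1) * hinge p y0 s =
      (F 1 - F u) + (((p : ℝ) + 1) / ((p : ℝ) + 4) - y0) * circHigh p u := by
    rw [intervalIntegral.integral_congr (g := fun s => arc s ^ (p + 1) *
        (((p : ℝ) + 1) * s ^ 2 - ((p : ℝ) + 1) / ((p : ℝ) + 4)) +
        (((p : ℝ) + 1) / ((p : ℝ) + 4) - y0) * arc s ^ (p + 1)) fun s hs => ?_,
      intervalIntegral.integral_add (Continuous.intervalIntegrable (by fun_prop) _ _)
        (Continuous.intervalIntegrable (by fun_prop) _ _),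
      intervalIntegral.integral_const_mul]
    · congr 1
      refine intervalIntegral.integral_eq_sub_of_hasDerivAt_of_le hu1.le
        hFc.continuousOn (fun s hs => ?_)
        (Continuous.intervalIntegrable (by fun_prop) _ _)
      have hs0 : 0 < 1 - s ^ 2 := by nlinarith [hs.1, hs.2]
      have h2 : arc s ^ 2 = 1 - s ^ 2 := Real.sq_sqrt hs0.le
      refine (((hasDerivAt_id s).mul (hasDerivAt_arc_pow (p + 2) (s := s)
        ⟨by linarith [hs.1], hs.2⟩)).const_mul (-(((p : ℝ) + 1) / ((p : ℝ) + 4)))).congr_deriv ?_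
      simp only [id, one_mul]
      rw [show arc s ^ (p + 2 + 1) = arc s ^ (p + 1) * (1 - s ^ 2) by rw [← h2]; ring]
      push_cast
      field_simp
      ring
    · rw [uIcc_of_le hu1.le] at hs
      have : y0 ≤ ((p : ℝ) + 1) * s ^ 2 := by
        rw [← hmu]
        exact mul_le_mul_of_nonneg_left (pow_le_pow_left₀ hu0.le hs.1 2) hm.le
      simp only [hinge, max_eq_right (sub_nonneg.2 this)]
      ring
  rw [← intervalIntegral.integral_add_adjacent_intervals (hi 0 u) (hi u 1), hA, zero_add, hB]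
  have hF1 : F 1 = 0 := by simp [hF, arc]
  have hT := circHigh_ge_sq (p := p) (s := u) ⟨hu0.le, hu1.le⟩
  have hc : 0 < arc u := arc_pos ⟨by linarith, hu1⟩
  have h2 : arc u ^ 2 = 1 - u ^ 2 := Real.sq_sqrt (by nlinarith)
  have hk := arc_pow_knee (p := p) ⟨hu0.le, hu1⟩ hmu
  have hco : ((p : ℝ) + 1) / ((p : ℝ) + 4) - y0 ≤ 0 := by
    rw [sub_nonpos, div_le_iff₀ (by positivity)]
    nlinarith
  rw [hF1]
  simp only [hF]
  refine (add_le_add le_rfl (mul_le_mul_of_nonpos_left hT hco)).trans ?_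
  have e : 0 - -(((p : ℝ) + 1) / ((p : ℝ) + 4)) * (u * arc u ^ (p + 3)) +
      (((p : ℝ) + 1) / ((p : ℝ) + 4) - y0) *
        (arc u ^ (p + 3) * (u / (((p : ℝ) + 3) * u ^ 2 + 1))) =
      u * ((1 - y0 / ((p : ℝ) + 1)) * arc u ^ (p + 1)) *
        ((2 * ((p : ℝ) + 1) - y0) /
          (((p : ℝ) + 4) * (y0 + 2 * (y0 / ((p : ℝ) + 1)) + 1))) := by
    rw [show arc u ^ (p + 3) = arc u ^ (p + 1) * (1 - u ^ 2) by rw [← h2]; ring,
      show ((p : ℝ) + 3) * u ^ 2 = y0 + 2 * (y0 / ((p : ℝ) + 1)) by rw [← hu2, ← hmu]; ring,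
      hu2]
    have : y0 + 2 * (y0 / ((p : ℝ) + 1)) + 1 ≠ 0 := by positivity
    field_simp
    ring
  rw [e]
  refine mul_le_mul_of_nonneg_right (mul_le_mul_of_nonneg_left
    (mul_le_mul_of_nonneg_left hk ?_) hu0.le) ?_
  · rw [sub_nonneg, div_le_one hm]; linarith
  · exact div_nonneg (by linarith) (by positivity)

/-- The half circle from below. -/
theorem half_ge (p : ℕ) : 1253 / 1000 ≤ half (p + 1) * √((p : ℝ) + 3) := by
  have h := LargeN.le_circ_sq (p + 1)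
  rw [Ident.circ_eq_half] at h
  push_cast at h
  refine (pow_le_pow_iff_left₀ (by norm_num) (mul_nonneg (Ident.half_pos _).le
    (Real.sqrt_nonneg _)) two_ne_zero).1 ?_
  rw [mul_pow, Real.sq_sqrt (by positivity)]
  rw [div_le_iff₀ (by positivity)] at h
  nlinarith [Real.pi_gt_d4]

/-- The mean of the hinge against the half circle. -/
theorem hinge_mean_le {y0 σ η : ℝ} (hy : 1 ≤ y0) (hym : y0 < (p : ℝ) + 1) (hσ : y0 ≤ σ ^ 2)
    (hσ0 : 0 ≤ σ) (hη : Real.exp (-(y0 / 2)) ≤ η) :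
    ∫ s in (0 : ℝ)..1, arc s ^ (p + 1) * hinge p y0 s ≤
      σ * η * (1000 / 1253) * (1 + 1 / ((p : ℝ) + 1)) * (1 - y0 / ((p : ℝ) + 1)) *
        ((2 * ((p : ℝ) + 1) - y0) /
          ((1 + y0 ^ 2 / (4 * ((p : ℝ) + 1))) * ((p : ℝ) + 4) *
            (y0 + 2 * (y0 / ((p : ℝ) + 1)) + 1))) * half (p + 1) := by
  refine (integral_hinge_le hy hym).trans ?_
  have hm : (0 : ℝ) < (p : ℝ) + 1 := by positivity
  have hh := half_ge p
  have hη0 : 0 ≤ η := (Real.exp_pos _).le.trans hη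
  have h1 : √(y0 / ((p : ℝ) + 1)) ≤
      σ * (1000 / 1253) * (1 + 1 / ((p : ℝ) + 1)) * half (p + 1) := by
    have h2 : √(y0 / ((p : ℝ) + 1)) ≤ σ / √((p : ℝ) + 1) := by
      rw [Real.sqrt_div (by linarith)]
      exact div_le_div_of_nonneg_right ((Real.sqrt_le_left hσ0).2 hσ) (Real.sqrt_nonneg _)
    have h3 : √((p : ℝ) + 3) ≤ (1 + 1 / ((p : ℝ) + 1)) * √((p : ℝ) + 1) := by
      refine (pow_le_pow_iff_left₀ (Real.sqrt_nonneg _) (by positivity) two_ne_zero).1 ?_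
      rw [mul_pow, Real.sq_sqrt (by positivity), Real.sq_sqrt (by positivity)]
      have e : (1 + 1 / ((p : ℝ) + 1)) ^ 2 * ((p : ℝ) + 1) = (p : ℝ) + 3 + 1 / ((p : ℝ) + 1) := by
        field_simp
        ring
      rw [e]
      exact le_add_of_nonneg_right (by positivity)
    refine h2.trans ?_
    rw [div_le_iff₀ (Real.sqrt_pos.2 hm)]
    have h4 := mul_le_mul_of_nonneg_left (hh.trans (mul_le_mul_of_nonneg_left h3
      (Ident.half_pos _).le)) (mul_nonneg hσ0 (show (0 : ℝ) ≤ 1000 / 1253 by norm_num))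
    linarith
  have h5 : 0 ≤ 1 - y0 / ((p : ℝ) + 1) := by rw [sub_nonneg, div_le_one hm]; linarith
  have h6 : 0 ≤ (2 * ((p : ℝ) + 1) - y0) /
      (((p : ℝ) + 4) * (y0 + 2 * (y0 / ((p : ℝ) + 1)) + 1)) := div_nonneg (by linarith) (by positivity)
  refine (mul_le_mul_of_nonneg_right (mul_le_mul h1 (mul_le_mul_of_nonneg_left
    (div_le_div_of_nonneg_right hη (by positivity)) h5)
      (mul_nonneg h5 (div_nonneg (Real.exp_pos _).le (by positivity)))
      (by have := Ident.half_pos (p + 1); positivity)) h6).trans (le_of_eq ?_)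
  field_simp

end Vale.Agent.P237.Petty.Cor.Mid36
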