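import Vale.Agent.P237.Petty.Cor.Mid36.Tail

/-!
# P237: the mean of the remainder of the cell between three and six over the dimension
-/

namespace Vale.Agent.P237.Petty.Cor.Mid36

open MeasureTheory Set intervalIntegral
open Ident (half)
open Huge (moment)
open Vale.Agent.P100.Bernstein

variable {p : ℕ}

/-- The coefficient of `y ^ 0` in the mean. -/
def xq0 : Expr := .frac 4688429 15625000000

/-- The coefficient of `y ^ 1` in the mean. -/
def xq1 : Expr := .frac 158931851 200000000 + .frac 39455293 1250000 * vE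

/-- The coefficient of `y ^ 2` in the mean. -/
def xq2 : Expr := .frac (-27433281) 20000000 + .frac (-663620361) 10000000 * vE

/-- The coefficient of `y ^ 3` in the mean. -/
def xq3 : Expr := .frac 207218229 100000000 + .frac 473422503 10000000 * vE

/-- The coefficient of `y ^ 4` in the mean. -/
def xq4 : Expr := .frac (-103801881) 100000000 + .frac (-144980233) 10000000 * vE

/-- The coefficient of `y ^ 5` in the mean. -/
def xq5 : Expr := .frac 51758009 200000000 + .frac 195849121 100000000 * vE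

/-- The coefficient of `y ^ 6` in the mean. -/
def xq6 : Expr := .frac (-183626957) 5000000000 + .frac (-52851521) 500000000 * vE

/-- The coefficient of `y ^ 7` in the mean. -/
def xq7 : Expr := .frac 310142447 100000000000 + .frac 197973663 100000000000 * vE

/-- The coefficient of `y ^ 8` in the mean. -/
def xq8 : Expr := .frac (-38898981) 250000000000

/-- The coefficient of `y ^ 9` in the mean. -/
def xq9 : Expr := .frac 3597289 800000000000

/-- The coefficient of `y ^ 10` in the mean. -/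
def xq10 : Expr := .frac (-137182273) 2000000000000000

/-- The coefficient of `y ^ 11` in the mean. -/
def xq11 : Expr := .frac 212818953 500000000000000000

/-- The mean of the remainder times the products of the moments. -/
def xHorner : Expr :=
  (((((((((((xq0)
      * (1 + 3 * vE) + xq1 * 1)
      * (1 + 5 * vE) + xq2 * 3)
      * (1 + 7 * vE) + xq3 * 15)
      * (1 + 9 * vE) + xq4 * 105)
      * (1 + 11 * vE) + xq5 * 945)
      * (1 + 13 * vE) + xq6 * 10395)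
      * (1 + 15 * vE) + xq7 * 135135)
      * (1 + 17 * vE) + xq8 * 2027025)
      * (1 + 19 * vE) + xq9 * 34459425)
      * (1 + 21 * vE) + xq10 * 654729075)
      * (1 + 23 * vE) + xq11 * 13749310575

/-- The products of the moments. -/
def xProd : Expr :=
  (1 + 3 * vE) * (1 + 5 * vE) * (1 + 7 * vE) * (1 + 9 * vE) * (1 + 11 * vE) *
    (1 + 13 * vE) * (1 + 15 * vE) * (1 + 17 * vE) * (1 + 19 * vE) * (1 + 21 * vE) * (1 + 23 * vE)

/-- The hinge at `99 / 20`, numerator. -/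
def xHn1 : Expr :=
  .frac 22249 10000 * .frac 842 10000 * .frac 1000 1253 *
    ((1 + vE) * (1 - .frac 99 20 * vE) * (2 - .frac 99 20 * vE))

/-- The hinge at `99 / 20`, denominator. -/
def xHd1 : Expr :=
  (1 + .frac 9801 1600 * vE) * (1 + 3 * vE) * (.frac 119 20 + .frac 99 10 * vE)

/-- The hinge at `399 / 50`, numerator. -/
def xHn2 : Expr :=
  .frac 2825 1000 * .frac 1851 100000 * .frac 1000 1253 *
    ((1 + vE) * (1 - .frac 399 50 * vE) * (2 - .frac 399 50 * vE))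

/-- The hinge at `399 / 50`, denominator. -/
def xHd2 : Expr :=
  (1 + .frac 159201 10000 * vE) * (1 + 3 * vE) * (.frac 449 50 + .frac 399 25 * vE)

/-- The mean inequality, cleared. -/
def xMean : Expr :=
  (3 * (.frac 3 4 - .frac 288 100 * vE) * (xHd1 * xHd2) -
      3 * (1 + 12 * vE ^ 2) * (1 + vE) *
        (.frac 121 25 * (xHn1 * xHd2) + .frac 487 100 * (xHn2 * xHd1)) -
      (1 + vE) ^ 2 * .frac 1 100 * (xHd1 * xHd2)) * xProd -
    (1 + vE) ^ 2 * (xHd1 * xHd2) * xHorner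

theorem cert_mean : onBox xMean 0 0 1 .leaf = true := by decide +kernel

/-- The combination of the moments. -/
theorem mean_alg {q0 q1 q2 q3 q4 q5 q6 q7 q8 q9 q10 q11 H w1 w2 w3 w4 w5 w6 w7 w8 w9 w10 w11 X0 X1 X2 X3 X4 X5 X6 X7 X8 X9 X10 X11 : ℝ} (h0 : X0 = H)
    (h1 : w1 * X1 = 1 * X0) (h2 : w2 * X2 = 3 * X1) (h3 : w3 * X3 = 5 * X2) (h4 : w4 * X4 = 7 * X3) (h5 : w5 * X5 = 9 * X4) (h6 : w6 * X6 = 11 * X5) (h7 : w7 * X7 = 13 * X6) (h8 : w8 * X8 = 15 * X7) (h9 : w9 * X9 = 17 * X8) (h10 : w10 * X10 = 19 * X9) (h11 : w11 * X11 = 21 * X10) :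
    (q0 * X0 + q1 * X1 + q2 * X2 + q3 * X3 + q4 * X4 + q5 * X5 + q6 * X6 + q7 * X7 + q8 * X8 + q9 * X9 + q10 * X10 + q11 * X11) *
      (w1 * w2 * w3 * w4 * w5 * w6 * w7 * w8 * w9 * w10 * w11) =
      (((((((((((q0 * w1 + q1 * 1) * w2 + q2 * 3) * w3 + q3 * 15) * w4 + q4 * 105) * w5 + q5 * 945) * w6 + q6 * 10395) * w7 + q7 * 135135) * w8 + q8 * 2027025) * w9 + q9 * 34459425) * w10 + q10 * 654729075) * w11 + q11 * 13749310575) * H := by
  have g1 : w1 * X1 = 1 * H := by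
    linear_combination (1) * h1 + 1 * h0
  have g2 : w1 * w2 * X2 = 3 * H := by
    linear_combination (w1) * h2 + 3 * g1
  have g3 : w1 * w2 * w3 * X3 = 15 * H := by
    linear_combination (w1 * w2) * h3 + 5 * g2
  have g4 : w1 * w2 * w3 * w4 * X4 = 105 * H := by
    linear_combination (w1 * w2 * w3) * h4 + 7 * g3
  have g5 : w1 * w2 * w3 * w4 * w5 * X5 = 945 * H := by
    linear_combination (w1 * w2 * w3 * w4) * h5 + 9 * g4
  have g6 : w1 * w2 * w3 * w4 * w5 * w6 * X6 = 10395 * H := by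
    linear_combination (w1 * w2 * w3 * w4 * w5) * h6 + 11 * g5
  have g7 : w1 * w2 * w3 * w4 * w5 * w6 * w7 * X7 = 135135 * H := by
    linear_combination (w1 * w2 * w3 * w4 * w5 * w6) * h7 + 13 * g6
  have g8 : w1 * w2 * w3 * w4 * w5 * w6 * w7 * w8 * X8 = 2027025 * H := by
    linear_combination (w1 * w2 * w3 * w4 * w5 * w6 * w7) * h8 + 15 * g7
  have g9 : w1 * w2 * w3 * w4 * w5 * w6 * w7 * w8 * w9 * X9 = 34459425 * H := by
    linear_combination (w1 * w2 * w3 * w4 * w5 * w6 * w7 * w8) * h9 + 17 * g8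
  have g10 : w1 * w2 * w3 * w4 * w5 * w6 * w7 * w8 * w9 * w10 * X10 = 654729075 * H := by
    linear_combination (w1 * w2 * w3 * w4 * w5 * w6 * w7 * w8 * w9) * h10 + 19 * g9
  have g11 : w1 * w2 * w3 * w4 * w5 * w6 * w7 * w8 * w9 * w10 * w11 * X11 = 13749310575 * H := by
    linear_combination (w1 * w2 * w3 * w4 * w5 * w6 * w7 * w8 * w9 * w10) * h11 + 21 * g10
  linear_combination q0 * (w1 * w2 * w3 * w4 * w5 * w6 * w7 * w8 * w9 * w10 * w11) * h0 + q1 * (w2 * w3 * w4 * w5 * w6 * w7 * w8 * w9 * w10 * w11) * g1 + q2 * (w3 * w4 * w5 * w6 * w7 * w8 * w9 * w10 * w11) * g2 + q3 * (w4 * w5 * w6 * w7 * w8 * w9 * w10 * w11) * g3 + q4 * (w5 * w6 * w7 * w8 * w9 * w10 * w11) * g4 + q5 * (w6 * w7 * w8 * w9 * w10 * w11) * g5 + q6 * (w7 * w8 * w9 * w10 * w11) * g6 + q7 * (w8 * w9 * w10 * w11) * g7 + q8 * (w9 * w10 * w11) * g8 + q9 * (w10 * w11) * g9 + q10 * (w11) * g10 + q11 * g11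

/-- The remainder as a polynomial in `y`. -/
theorem xR_eval (y e w : ℝ) : xR.eval [y, e, w] =
    xq0.eval [y, e, w] * y ^ 0 +
    xq1.eval [y, e, w] * y ^ 1 +
    xq2.eval [y, e, w] * y ^ 2 +
    xq3.eval [y, e, w] * y ^ 3 +
    xq4.eval [y, e, w] * y ^ 4 +
    xq5.eval [y, e, w] * y ^ 5 +
    xq6.eval [y, e, w] * y ^ 6 +
    xq7.eval [y, e, w] * y ^ 7 +
    xq8.eval [y, e, w] * y ^ 8 +
    xq9.eval [y, e, w] * y ^ 9 +
    xq10.eval [y, e, w] * y ^ 10 +
    xq11.eval [y, e, w] * y ^ 11 := by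
  simp [xR, xZ, xq0, xq1, xq2, xq3, xq4, xq5, xq6, xq7, xq8, xq9, xq10, xq11]
  ring

theorem continuous_xR (p : ℕ) :
    Continuous fun s => xR.eval [((p : ℝ) + 1) * s ^ 2, 1 / ((p : ℝ) + 1), 0] := by
  simp only [xR_eval, xq0, xq1, xq2, xq3, xq4, xq5, xq6, xq7, xq8, xq9, xq10, xq11, Expr.eval_add,
    Expr.eval_mul, Expr.eval_frac, Expr.eval_var, List.getD_cons_succ, List.getD_cons_zero]
  fun_prop

theorem xR_pt (p : ℕ) (s : ℝ) : xR.eval (pt p s) =
    xR.eval [((p : ℝ) + 1) * s ^ 2, 1 / ((p : ℝ) + 1), 0] := by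
  rw [pt, xR_eval, xR_eval]
  simp [xq0, xq1, xq2, xq3, xq4, xq5, xq6, xq7, xq8, xq9, xq10, xq11]

theorem xR_nonneg (hp : 98 ≤ p) {s : ℝ} (hs : s ∈ Icc (0 : ℝ) 1) : 0 ≤ xR.eval (pt p s) := by
  obtain ⟨hy, he, he', hz⟩ := pt_mem hp s
  have hs2 : s ^ 2 ≤ 1 := pow_le_one₀ hs.1 hs.2
  rcases le_total (((p : ℝ) + 1) * s ^ 2) 40 with h | h
  · exact onBox_nonneg certR _ (by simpa using hy) (by simpa using h) he.le he'
  · exact onFar_nonneg certR_far h he.le (by push_cast; linarith)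

/-- The products of the remainder and the moments. -/
theorem integral_xR (hp : 98 ≤ p) :
    (∫ s in (0 : ℝ)..1, arc s ^ (p + 1) * xR.eval (pt p s)) *
        xProd.eval [0, 1 / ((p : ℝ) + 1), 0] =
      xHorner.eval [0, 1 / ((p : ℝ) + 1), 0] * half (p + 1) := by
  obtain ⟨-, he, -, -⟩ := pt_mem hp 0
  set e := 1 / ((p : ℝ) + 1) with hee
  have h := integral_evenPoly (p + 1) 12 fun j => ([xq0.eval [0, e, 0],
    xq1.eval [0, e, 0],
    xq2.eval [0, e, 0],
    xq3.eval [0, e, 0],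
    xq4.eval [0, e, 0],
    xq5.eval [0, e, 0],
    xq6.eval [0, e, 0],
    xq7.eval [0, e, 0],
    xq8.eval [0, e, 0],
    xq9.eval [0, e, 0],
    xq10.eval [0, e, 0],
    xq11.eval [0, e, 0]] : List ℝ).getD j 0 * ((p : ℝ) + 1) ^ j
  simp only [Finset.sum_range_succ, Finset.sum_range_zero, List.getD_cons_zero,
    List.getD_cons_succ, zero_add] at h
  have hi : (∫ s in (0 : ℝ)..1, arc s ^ (p + 1) * xR.eval (pt p s)) =
      xq0.eval [0, e, 0] * (((p : ℝ) + 1) ^ 0 * moment (p + 1) 0) +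
      xq1.eval [0, e, 0] * (((p : ℝ) + 1) ^ 1 * moment (p + 1) 1) +
      xq2.eval [0, e, 0] * (((p : ℝ) + 1) ^ 2 * moment (p + 1) 2) +
      xq3.eval [0, e, 0] * (((p : ℝ) + 1) ^ 3 * moment (p + 1) 3) +
      xq4.eval [0, e, 0] * (((p : ℝ) + 1) ^ 4 * moment (p + 1) 4) +
      xq5.eval [0, e, 0] * (((p : ℝ) + 1) ^ 5 * moment (p + 1) 5) +
      xq6.eval [0, e, 0] * (((p : ℝ) + 1) ^ 6 * moment (p + 1) 6) +
      xq7.eval [0, e, 0] * (((p : ℝ) + 1) ^ 7 * moment (p + 1) 7) +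
      xq8.eval [0, e, 0] * (((p : ℝ) + 1) ^ 8 * moment (p + 1) 8) +
      xq9.eval [0, e, 0] * (((p : ℝ) + 1) ^ 9 * moment (p + 1) 9) +
      xq10.eval [0, e, 0] * (((p : ℝ) + 1) ^ 10 * moment (p + 1) 10) +
      xq11.eval [0, e, 0] * (((p : ℝ) + 1) ^ 11 * moment (p + 1) 11) := by
    refine (intervalIntegral.integral_congr fun s _ => ?_).trans (h.trans (by ring))
    simp only [pt, xR_eval, ← hee, xq0, xq1, xq2, xq3, xq4, xq5, xq6, xq7, xq8, xq9, xq10, xq11, Expr.eval_add,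
      Expr.eval_mul, Expr.eval_frac, Expr.eval_var, List.getD_cons_succ, List.getD_cons_zero]
    ring
  rw [hi]
  have st : ∀ j : ℕ, (1 + (2 * (j : ℝ) + 3) * e) * (((p : ℝ) + 1) ^ (j + 1) * moment (p + 1) (j + 1)) =
      (2 * (j : ℝ) + 1) * (((p : ℝ) + 1) ^ j * moment (p + 1) j) := fun j => by
    have h1 := Huge.moment_step (p + 1) j
    push_cast at h1
    have h2 : (1 + (2 * (j : ℝ) + 3) * e) * ((p : ℝ) + 1) = (p : ℝ) + 1 + (2 * (j : ℝ) + 3) := by
      rw [hee]; field_simp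
    linear_combination ((p : ℝ) + 1) ^ j * h1 +
      ((p : ℝ) + 1) ^ j * moment (p + 1) (j + 1) * h2
  have hA := mean_alg (q0 := xq0.eval [0, e, 0]) (q1 := xq1.eval [0, e, 0]) (q2 := xq2.eval [0, e, 0]) (q3 := xq3.eval [0, e, 0]) (q4 := xq4.eval [0, e, 0]) (q5 := xq5.eval [0, e, 0]) (q6 := xq6.eval [0, e, 0]) (q7 := xq7.eval [0, e, 0]) (q8 := xq8.eval [0, e, 0]) (q9 := xq9.eval [0, e, 0]) (q10 := xq10.eval [0, e, 0]) (q11 := xq11.eval [0, e, 0]) (H := half (p + 1))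
    (X0 := ((p : ℝ) + 1) ^ 0 * moment (p + 1) 0)
    (X1 := ((p : ℝ) + 1) ^ 1 * moment (p + 1) 1)
    (X2 := ((p : ℝ) + 1) ^ 2 * moment (p + 1) 2)
    (X3 := ((p : ℝ) + 1) ^ 3 * moment (p + 1) 3)
    (X4 := ((p : ℝ) + 1) ^ 4 * moment (p + 1) 4)
    (X5 := ((p : ℝ) + 1) ^ 5 * moment (p + 1) 5)
    (X6 := ((p : ℝ) + 1) ^ 6 * moment (p + 1) 6)
    (X7 := ((p : ℝ) + 1) ^ 7 * moment (p + 1) 7)
    (X8 := ((p : ℝ) + 1) ^ 8 * moment (p + 1) 8)
    (X9 := ((p : ℝ) + 1) ^ 9 * moment (p + 1) 9)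
    (X10 := ((p : ℝ) + 1) ^ 10 * moment (p + 1) 10)
    (X11 := ((p : ℝ) + 1) ^ 11 * moment (p + 1) 11)
    (w1 := 1 + 3 * e)
    (w2 := 1 + 5 * e)
    (w3 := 1 + 7 * e)
    (w4 := 1 + 9 * e)
    (w5 := 1 + 11 * e)
    (w6 := 1 + 13 * e)
    (w7 := 1 + 15 * e)
    (w8 := 1 + 17 * e)
    (w9 := 1 + 19 * e)
    (w10 := 1 + 21 * e)
    (w11 := 1 + 23 * e)
    (by simp [Huge.moment_zero])
    (by have := st 0; push_cast at this; linarith)
    (by have := st 1; push_cast at this; linarith)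
    (by have := st 2; push_cast at this; linarith)
    (by have := st 3; push_cast at this; linarith)
    (by have := st 4; push_cast at this; linarith)
    (by have := st 5; push_cast at this; linarith)
    (by have := st 6; push_cast at this; linarith)
    (by have := st 7; push_cast at this; linarith)
    (by have := st 8; push_cast at this; linarith)
    (by have := st 9; push_cast at this; linarith)
    (by have := st 10; push_cast at this; linarith)
  simp only [xProd, xHorner, Expr.eval_mul, Expr.eval_add, Expr.eval_ofNat, Expr.eval_var,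
    List.getD_cons_zero, List.getD_cons_succ]
  push_cast
  linear_combination hA

end Vale.Agent.P237.Petty.Cor.Mid36
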