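import Vale.Agent.P237.Petty.Cor.Mid36.State

/-!
# P237: the cell between three and six over the dimension, pointwise in the bulk

Each of the ten ranges of `y` gives the hypotheses of the two pieces of a state.
-/

namespace Vale.Agent.P237.Petty.Cor.Mid36

open Set
open Ident (half rate)
open Vale.Agent.P100.Bernstein

variable {p : ℕ}

theorem eval_sub_nonneg {a b : Expr} {x : List ℝ} (h : 0 ≤ (a - b).eval x) :
    b.eval x ≤ a.eval x := by
  simp only [Expr.eval_sub] at h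
  linarith

/-- A range of `y` from the values of its expressions. -/
theorem section_le (hp : 98 ≤ p) {ell s t a r q : ℝ} (h : FlatState p ell s t a r q) (h0 : 0 ≤ ell)
    (hell : ell ≤ 6 / ((p : ℝ) + 1)) (hz : s ^ 2 ≤ 2 / 5) (ga b pl dv m1 mu W : Expr)
    (hga : ga.eval (pt p s) = poleF p s) (hb : b.eval (pt p s) = bF p s)
    (hpl : pl.eval (pt p s) = plF (((p : ℝ) + 1) * s ^ 2)) (hdv : dv.eval (pt p s) = dhF p s)
    (hm1 : 0 ≤ m1.eval (pt p s) ∧ m1.eval (pt p s) ≤ muSum p s)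
    (hmu : 0 ≤ mu.eval (pt p s) ∧ mu.eval (pt p s) ≤ muSum p s)
    (hw : 1 / r ≤ W.eval (pt p s)) (hWm : W.eval (pt p s) - 1 ≤ (p : ℝ) + 1)
    (hB1 : 0 ≤ (xBc b m1 - .frac 1 100).eval (pt p s)) (hA : 0 ≤ (xA1 m1).eval (pt p s))
    (hK : 0 ≤ (xK1 ga b m1 - .frac 1 1000).eval (pt p s))
    (hP1 : 0 ≤ (xP1 ga b pl dv m1).eval (pt p s) ∨
      (0 ≤ (xP1b ga b pl dv m1).eval (pt p s) ∧ 0 ≤ (dv - m1).eval (pt p s)))
    (hB2 : 0 ≤ (xBc b mu - .frac 1 100).eval (pt p s))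
    (hhigh : (0 ≤ (xK2 ga b mu W - .frac 1 1000).eval (pt p s) ∧
        0 ≤ (xP2 ga b pl dv mu W).eval (pt p s)) ∨
      (0 ≤ (xL2 ga b pl dv mu).eval (pt p s) ∧ 0 ≤ (xQ2 b dv mu).eval (pt p s) ∧
        0 ≤ (xEnd ga b pl dv mu W).eval (pt p s))) :
    ell * (wS p (arc s) - massF p s) - (1 / ((p : ℝ) + 1)) ^ 2 * xR.eval (pt p s) ≤
      cancelExpr p (gamC p) (nuC p) ell (fun s t => s + 1 * (s - t)) (fun _ _ => 1 + 1)
        (fun _ _ => -1) (quadPot (potK p) (potB p)) (quadPotS (potK p) (potK' p) (potB p) (potB' p))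
        (quadPotT (potK p) (potB p)) s t a r := by
  obtain ⟨-, -, -, hz'⟩ := pt_mem hp s
  have eY : vY.eval (pt p s) = ((p : ℝ) + 1) * s ^ 2 := rfl
  have eE : vE.eval (pt p s) = 1 / ((p : ℝ) + 1) := rfl
  have eZ : xZ.eval (pt p s) = s ^ 2 := by rw [xZ, Expr.eval_mul, eY, eE, hz']
  simp only [xP1, xP1b, xK1, xA1, xl1, xP2, xQ2, xK2, xL2, xN, xEnd, xBc, xC, xPu, xNl, xEh,
    Expr.eval_sub, Expr.eval_mul, Expr.eval_add, Expr.eval_pow, Expr.eval_frac, Expr.eval_num,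
    Expr.eval_ofNat, eY, eE, eZ, hga, hb, hpl, hdv] at hB1 hA hK hP1 hB2 hhigh
  push_cast at hB1 hA hK hP1 hB2 hhigh
  rcases le_total (1 / r) 1 with hv | hv
  · rcases hP1 with hP | ⟨hP, hD⟩
    · refine low_state hp h h0 hell hz (μ := m1.eval (pt p s)) (Dr := 0)
        hm1.1 hm1.2 le_rfl hv rfl rfl rfl rfl ?_ rfl (by linarith) rfl ?_ ?_
      · linear_combination hA
      · linear_combination hK
      · linear_combination hP
    · refine low_state hp h h0 hell hz (μ := m1.eval (pt p s))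
        (Dr := dhF p s - m1.eval (pt p s)) hm1.1 hm1.2 hD hv rfl rfl rfl rfl ?_ rfl (by linarith)
        rfl ?_ ?_
      · linear_combination hA
      · linear_combination hK
      · linear_combination hP
  · refine high_state hp h h0 hell hz (μ := mu.eval (pt p s)) hmu.1 hmu.2 hv hw hWm
      (by linarith) rfl rfl rfl rfl rfl rfl rfl ?_
    rcases hhigh with ⟨h1, h2⟩ | ⟨h1, h2, h3⟩
    · exact Or.inl ⟨by linear_combination h1, by linear_combination h2⟩
    · exact Or.inr ⟨by linear_combination h1, by linear_combination h2, by linear_combination h3⟩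

/-- The expressions of the region up to `y = 40`. -/
theorem eval_near (p : ℕ) {s : ℝ} (hp : 98 ≤ p) (hy : ((p : ℝ) + 1) * s ^ 2 ≤ 40) :
    xGa.eval (pt p s) = poleF p s ∧ xB0.eval (pt p s) = bF p s := by
  obtain ⟨-, -, -, hz⟩ := pt_mem hp s
  simp only [xGa, xB0, xNh, xC, xZ, pt, Expr.eval_sub, Expr.eval_mul, Expr.eval_add, Expr.eval_frac,
    Expr.eval_num, Expr.eval_var, List.getD_cons_zero, List.getD_cons_succ, hz]
  push_cast
  rw [poleF, bF, phiF, phiF', if_pos hy, if_pos hy]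
  constructor <;> ring

/-- The expressions of the region beyond `y = 40`. -/
theorem eval_far (p : ℕ) {s : ℝ} (hp : 98 ≤ p) (hy : 40 ≤ ((p : ℝ) + 1) * s ^ 2) :
    xGaF.eval (pt p s) = poleF p s ∧ xB0F.eval (pt p s) = bF p s := by
  obtain ⟨-, -, -, hz⟩ := pt_mem hp s
  simp only [xGaF, xB0F, xPhi, xNh, xC, xZ, pt, Expr.eval_sub, Expr.eval_mul, Expr.eval_add,
    Expr.eval_frac, Expr.eval_num, Expr.eval_var, List.getD_cons_zero, List.getD_cons_succ, hz]
  push_cast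
  rw [poleF, bF, phiF, phiF']
  rcases eq_or_lt_of_le hy with h | h
  · rw [if_pos h.ge, if_pos h.ge, ← h]
    constructor <;> ring
  · rw [if_neg (not_le.2 h), if_neg (not_le.2 h), max_eq_left hy]
    have : ((p : ℝ) + 1) * s ^ 2 ≠ 0 := by linarith
    constructor <;> field_simp <;> ring

/-- The potential up to the knot. -/
theorem eval_low (p : ℕ) {s : ℝ} (hp : 98 ≤ p) (hy : ((p : ℝ) + 1) * s ^ 2 ≤ 334 / 25) :
    xPlA.eval (pt p s) = plF (((p : ℝ) + 1) * s ^ 2) ∧ xDhA.eval (pt p s) = dhF p s := by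
  obtain ⟨-, -, -, hz⟩ := pt_mem hp s
  simp only [xDhA, xPlA, xDpA, xC, xZ, pt, Expr.eval_sub, Expr.eval_mul, Expr.eval_add,
    Expr.eval_pow, Expr.eval_frac, Expr.eval_num, Expr.eval_var, List.getD_cons_zero,
    List.getD_cons_succ, hz]
  push_cast
  rw [dhF, plF, plF', if_pos hy, if_pos hy, quart]
  constructor <;> ring

/-- The potential beyond the knot. -/
theorem eval_high (p : ℕ) {s : ℝ} (hp : 98 ≤ p) (hy : 334 / 25 ≤ ((p : ℝ) + 1) * s ^ 2) :
    xPlB.eval (pt p s) = plF (((p : ℝ) + 1) * s ^ 2) ∧ xDhB.eval (pt p s) = dhF p s := by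
  obtain ⟨-, -, -, hz⟩ := pt_mem hp s
  simp only [xDhB, xPlB, xDpB, xC, xZ, pt, Expr.eval_sub, Expr.eval_mul, Expr.eval_add,
    Expr.eval_pow, Expr.eval_frac, Expr.eval_num, Expr.eval_var, List.getD_cons_zero,
    List.getD_cons_succ, hz]
  push_cast
  rw [dhF, plF, plF']
  rcases eq_or_lt_of_le hy with h | h
  · rw [if_pos h.ge, if_pos h.ge, ← h, quart]
    constructor <;> ring
  · rw [if_neg (not_le.2 h), if_neg (not_le.2 h)]
    constructor <;> ring

theorem muSum_ge (p : ℕ) (s : ℝ) :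
    121 / 25 * (((p : ℝ) + 1) * s ^ 2 - 99 / 20) ≤ muSum p s ∧
      121 / 25 * (((p : ℝ) + 1) * s ^ 2 - 99 / 20) +
        487 / 100 * (((p : ℝ) + 1) * s ^ 2 - 399 / 50) ≤ muSum p s := by
  have := hinge_nonneg p (399 / 50) s
  have h1 : ((p : ℝ) + 1) * s ^ 2 - 99 / 20 ≤ hinge p (99 / 20) s := le_max_right _ _
  have h2 : ((p : ℝ) + 1) * s ^ 2 - 399 / 50 ≤ hinge p (399 / 50) s := le_max_right _ _
  constructor <;> · rw [muSum]; linarith

/-- The centre. -/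
theorem bulk_centre (hp : 98 ≤ p) {ell s t a r q : ℝ} (h : FlatState p ell s t a r q)
    (h0 : 0 ≤ ell) (hell : ell ≤ 6 / ((p : ℝ) + 1)) (hz : s ^ 2 ≤ 2 / 5) (hlo : ((p : ℝ) + 1) * s ^ 2 ≤ 49 / 25) :
    ell * (wS p (arc s) - massF p s) - (1 / ((p : ℝ) + 1)) ^ 2 * xR.eval (pt p s) ≤
      cancelExpr p (gamC p) (nuC p) ell (fun s t => s + 1 * (s - t)) (fun _ _ => 1 + 1)
        (fun _ _ => -1) (quadPot (potK p) (potB p)) (quadPotS (potK p) (potK' p) (potB p) (potB' p))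
        (quadPotT (potK p) (potB p)) s t a r := by
  obtain ⟨hy0, he0, he, hzy⟩ := pt_mem hp s
  have hpp : (98 : ℝ) ≤ p := by exact_mod_cast hp
  obtain ⟨hM1, hM2⟩ := muSum_ge p s
  have hM0 := muSum_nonneg p s
  have hO : 0 ≤ xO.eval (pt p s) ∧ xO.eval (pt p s) ≤ muSum p s := by
    simp [xO, hM0]
  have hm1 : 99 / 20 ≤ ((p : ℝ) + 1) * s ^ 2 →
      0 ≤ xMu1.eval (pt p s) ∧ xMu1.eval (pt p s) ≤ muSum p s := fun hy => by
    simp only [xMu1, pt, Expr.eval_sub, Expr.eval_mul, Expr.eval_frac, Expr.eval_var,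
      List.getD_cons_zero]
    push_cast
    constructor <;> linarith
  have hm2 : 399 / 50 ≤ ((p : ℝ) + 1) * s ^ 2 →
      0 ≤ xMu2.eval (pt p s) ∧ xMu2.eval (pt p s) ≤ muSum p s := fun hy => by
    simp only [xMu2, xMu1, pt, Expr.eval_add, Expr.eval_sub, Expr.eval_mul, Expr.eval_frac,
      Expr.eval_var, List.getD_cons_zero]
    push_cast
    constructor <;> linarith
  have hm3 : 334 / 25 ≤ ((p : ℝ) + 1) * s ^ 2 →
      0 ≤ xMu3.eval (pt p s) ∧ xMu3.eval (pt p s) ≤ muSum p s := fun hy => by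
    simp only [xMu3, Expr.eval_frac]
    push_cast
    constructor <;> linarith
  have hye : ((p : ℝ) + 1) * s ^ 2 * (1 / ((p : ℝ) + 1)) ≤ 2 / 5 := hzy.le.trans hz
  have small : ∀ W : Expr, ∀ c0 c1 : ℝ, W.eval (pt p s) ≤ c0 + c1 * (((p : ℝ) + 1) * s ^ 2) →
      0 ≤ c1 → c0 + c1 * 40 ≤ 100 → ((p : ℝ) + 1) * s ^ 2 ≤ 40 →
      W.eval (pt p s) - 1 ≤ (p : ℝ) + 1 := fun W c0 c1 h1 h2 h3 h4 => by
    linarith [mul_le_mul_of_nonneg_left h4 h2]
  have hy : ((p : ℝ) + 1) * s ^ 2 ≤ 49 / 25 := hlo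
  have hw := inv_rate_le_low hp h h0 hell hy
  obtain ⟨hga, hb⟩ := eval_near p hp (s := s) (by linarith)
  obtain ⟨hpl, hdv⟩ := eval_low p hp (s := s) (by linarith)
  have hbe : 0 ≤ xBeta.eval (pt p s) ∧ xBeta.eval (pt p s) ≤ 80 := by
    simp only [xBeta, pt, Expr.eval_add, Expr.eval_mul, Expr.eval_frac, Expr.eval_var,
      List.getD_cons_zero]
    push_cast
    refine ⟨by positivity, ?_⟩
    calc _ ≤ (631 / 50 : ℝ) + 49 / 25 * (903 / 100 + 49 / 25 * (101 / 50 + 109 / 100 * (49 / 25))) := by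
          gcongr
      _ ≤ 80 := by norm_num
  have hWe : xW0.eval (pt p s) = 1 + 1 / ((p : ℝ) + 1) * xBeta.eval (pt p s) := by
    simp [xW0, pt]
  have hWm : xW0.eval (pt p s) - 1 ≤ (p : ℝ) + 1 := by
    rw [hWe]
    linarith [mul_le_mul he hbe.2 hbe.1 (by norm_num)]
  rcases le_total (((p : ℝ) + 1) * s ^ 2) (3 / 4) with hy' | hy'
  · have g : ∀ {a : Expr} {T : Tree}, onBox a 0 3 4 T = true → 0 ≤ a.eval (pt p s) := fun hc =>
      onBox_nonneg hc _ (by push_cast; linarith) (by push_cast; linarith) he0.le he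
    exact section_le hp h h0 hell hz xGa xB0 xPlA xDhA xO xO xW0 hga hb hpl hdv hO hO hw hWm
      (g cert0_B) (g cert0_A) (g cert0_K) (Or.inl (g cert0_P)) (g cert0_B)
      (Or.inl ⟨g cert0_K2, g cert0_P2⟩)
  · have g : ∀ {a : Expr} {T : Tree}, onBox a 75 196 100 T = true → 0 ≤ a.eval (pt p s) :=
      fun hc => onBox_nonneg hc _ (by push_cast; linarith) (by push_cast; linarith) he0.le he
    refine section_le hp h h0 hell hz xGa xB0 xPlA xDhA xO xO xW0 hga hb hpl hdv hO hO hw hWm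
      (g cert1_B) (g cert1_A) (g cert1_K) (Or.inl (g cert1_P)) (g cert1_B)
      (Or.inr ⟨g cert1_L2, g cert1_Q2, ?_⟩)
    refine le_of_le_of_eq (mul_nonneg (sq_nonneg (1 / ((p : ℝ) + 1))) (g cert1_E2)) ?_
    simp only [xEnd, xEnd0, Expr.eval_sub, Expr.eval_mul, Expr.eval_add, Expr.eval_pow,
      Expr.eval_ofNat, hWe, pt, Expr.eval_var, List.getD_cons_zero, List.getD_cons_succ]
    push_cast
    simp only [pt] at hWe
    rw [hWe]
    ring

/-- Up to the second knee. -/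
theorem bulk_inner (hp : 98 ≤ p) {ell s t a r q : ℝ} (h : FlatState p ell s t a r q)
    (h0 : 0 ≤ ell) (hell : ell ≤ 6 / ((p : ℝ) + 1)) (hz : s ^ 2 ≤ 2 / 5) (hlo : 49 / 25 ≤ ((p : ℝ) + 1) * s ^ 2) (hhi : ((p : ℝ) + 1) * s ^ 2 ≤ 399 / 50) :
    ell * (wS p (arc s) - massF p s) - (1 / ((p : ℝ) + 1)) ^ 2 * xR.eval (pt p s) ≤
      cancelExpr p (gamC p) (nuC p) ell (fun s t => s + 1 * (s - t)) (fun _ _ => 1 + 1)
        (fun _ _ => -1) (quadPot (potK p) (potB p)) (quadPotS (potK p) (potK' p) (potB p) (potB' p))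
        (quadPotT (potK p) (potB p)) s t a r := by
  obtain ⟨hy0, he0, he, hzy⟩ := pt_mem hp s
  have hpp : (98 : ℝ) ≤ p := by exact_mod_cast hp
  obtain ⟨hM1, hM2⟩ := muSum_ge p s
  have hM0 := muSum_nonneg p s
  have hO : 0 ≤ xO.eval (pt p s) ∧ xO.eval (pt p s) ≤ muSum p s := by
    simp [xO, hM0]
  have hm1 : 99 / 20 ≤ ((p : ℝ) + 1) * s ^ 2 →
      0 ≤ xMu1.eval (pt p s) ∧ xMu1.eval (pt p s) ≤ muSum p s := fun hy => by
    simp only [xMu1, pt, Expr.eval_sub, Expr.eval_mul, Expr.eval_frac, Expr.eval_var,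
      List.getD_cons_zero]
    push_cast
    constructor <;> linarith
  have hm2 : 399 / 50 ≤ ((p : ℝ) + 1) * s ^ 2 →
      0 ≤ xMu2.eval (pt p s) ∧ xMu2.eval (pt p s) ≤ muSum p s := fun hy => by
    simp only [xMu2, xMu1, pt, Expr.eval_add, Expr.eval_sub, Expr.eval_mul, Expr.eval_frac,
      Expr.eval_var, List.getD_cons_zero]
    push_cast
    constructor <;> linarith
  have hm3 : 334 / 25 ≤ ((p : ℝ) + 1) * s ^ 2 →
      0 ≤ xMu3.eval (pt p s) ∧ xMu3.eval (pt p s) ≤ muSum p s := fun hy => by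
    simp only [xMu3, Expr.eval_frac]
    push_cast
    constructor <;> linarith
  have hye : ((p : ℝ) + 1) * s ^ 2 * (1 / ((p : ℝ) + 1)) ≤ 2 / 5 := hzy.le.trans hz
  have small : ∀ W : Expr, ∀ c0 c1 : ℝ, W.eval (pt p s) ≤ c0 + c1 * (((p : ℝ) + 1) * s ^ 2) →
      0 ≤ c1 → c0 + c1 * 40 ≤ 100 → ((p : ℝ) + 1) * s ^ 2 ≤ 40 →
      W.eval (pt p s) - 1 ≤ (p : ℝ) + 1 := fun W c0 c1 h1 h2 h3 h4 => by
    linarith [mul_le_mul_of_nonneg_left h4 h2]
  have hy := hlo
  rcases le_total (((p : ℝ) + 1) * s ^ 2) (99 / 20) with hy2 | hy2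
  · have g : ∀ {a : Expr} {T : Tree}, onBox a 196 495 100 T = true → 0 ≤ a.eval (pt p s) :=
      fun hc => onBox_nonneg hc _ (by push_cast; linarith) (by push_cast; linarith) he0.le he
    have lo := hy
    obtain ⟨hga, hb⟩ := eval_near p hp (s := s) (by linarith)
    obtain ⟨hpl, hdv⟩ := eval_low p hp (s := s) (by linarith)
    refine section_le hp h h0 hell hz xGa xB0 xPlA xDhA xO xO xW1 hga hb hpl hdv hO hO
      (inv_rate_le_affine hp xW1 h h0 hell (by linarith) (g cert2_V1) (g cert2_VW)) ?_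
      (g cert2_B) (g cert2_A) (g cert2_K) (Or.inl (g cert2_P))
      (g cert2_B) (Or.inr ⟨g cert2_L2, g cert2_Q2, g cert2_E2⟩)
    refine small _ 18 2 ?_ (by norm_num) (by norm_num) (by linarith)
    simp only [xW1, pt, Expr.eval_sub, Expr.eval_mul, Expr.eval_add, Expr.eval_frac, Expr.eval_num,
      Expr.eval_var, List.getD_cons_zero, List.getD_cons_succ]
    push_cast
    linarith
  rcases le_total (((p : ℝ) + 1) * s ^ 2) (77 / 10) with hy3 | hy3
  · have g : ∀ {a : Expr} {T : Tree}, onBox a 99 154 20 T = true → 0 ≤ a.eval (pt p s) :=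
      fun hc => onBox_nonneg hc _ (by push_cast; linarith) (by push_cast; linarith) he0.le he
    have lo := hy2
    obtain ⟨hga, hb⟩ := eval_near p hp (s := s) (by linarith)
    obtain ⟨hpl, hdv⟩ := eval_low p hp (s := s) (by linarith)
    refine section_le hp h h0 hell hz xGa xB0 xPlA xDhA xMu1 xMu1 xW2 hga hb hpl hdv (hm1 lo) (hm1 lo)
      (inv_rate_le_affine hp xW2 h h0 hell (by linarith) (g cert3_V1) (g cert3_VW)) ?_
      (g cert3_B) (g cert3_A) (g cert3_K) (Or.inl (g cert3_P))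
      (g cert3_B) (Or.inr ⟨g cert3_L2, g cert3_Q2, g cert3_E2⟩)
    refine small _ 18 2 ?_ (by norm_num) (by norm_num) (by linarith)
    simp only [xW2, pt, Expr.eval_sub, Expr.eval_mul, Expr.eval_add, Expr.eval_frac, Expr.eval_num,
      Expr.eval_var, List.getD_cons_zero, List.getD_cons_succ]
    push_cast
    linarith
  have hy4 := hhi
  have g : ∀ {a : Expr} {T : Tree}, onBox a 385 399 50 T = true → 0 ≤ a.eval (pt p s) :=
    fun hc => onBox_nonneg hc _ (by push_cast; linarith) (by push_cast; linarith) he0.le he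
  have lo := hy3
  obtain ⟨hga, hb⟩ := eval_near p hp (s := s) (by linarith)
  obtain ⟨hpl, hdv⟩ := eval_low p hp (s := s) (by linarith)
  refine section_le hp h h0 hell hz xGa xB0 xPlA xDhA xMu1 xMu1 xW2 hga hb hpl hdv (hm1 (by linarith)) (hm1 (by linarith))
    (inv_rate_le_affine hp xW2 h h0 hell (by linarith) (g cert4_V1) (g cert4_VW)) ?_
    (g cert4_B) (g cert4_A) (g cert4_K) (Or.inr ⟨g cert4_P, g cert4_D⟩)
    (g cert4_B) (Or.inr ⟨g cert4_L2, g cert4_Q2, g cert4_E2⟩)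
  refine small _ 18 2 ?_ (by norm_num) (by norm_num) (by linarith)
  simp only [xW2, pt, Expr.eval_sub, Expr.eval_mul, Expr.eval_add, Expr.eval_frac, Expr.eval_num,
    Expr.eval_var, List.getD_cons_zero, List.getD_cons_succ]
  push_cast
  linarith

/-- Up to `y = 16`. -/
theorem bulk_middle (hp : 98 ≤ p) {ell s t a r q : ℝ} (h : FlatState p ell s t a r q)
    (h0 : 0 ≤ ell) (hell : ell ≤ 6 / ((p : ℝ) + 1)) (hz : s ^ 2 ≤ 2 / 5) (hlo : 399 / 50 ≤ ((p : ℝ) + 1) * s ^ 2) (hhi : ((p : ℝ) + 1) * s ^ 2 ≤ 16) :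
    ell * (wS p (arc s) - massF p s) - (1 / ((p : ℝ) + 1)) ^ 2 * xR.eval (pt p s) ≤
      cancelExpr p (gamC p) (nuC p) ell (fun s t => s + 1 * (s - t)) (fun _ _ => 1 + 1)
        (fun _ _ => -1) (quadPot (potK p) (potB p)) (quadPotS (potK p) (potK' p) (potB p) (potB' p))
        (quadPotT (potK p) (potB p)) s t a r := by
  obtain ⟨hy0, he0, he, hzy⟩ := pt_mem hp s
  have hpp : (98 : ℝ) ≤ p := by exact_mod_cast hp
  obtain ⟨hM1, hM2⟩ := muSum_ge p s
  have hM0 := muSum_nonneg p s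
  have hO : 0 ≤ xO.eval (pt p s) ∧ xO.eval (pt p s) ≤ muSum p s := by
    simp [xO, hM0]
  have hm1 : 99 / 20 ≤ ((p : ℝ) + 1) * s ^ 2 →
      0 ≤ xMu1.eval (pt p s) ∧ xMu1.eval (pt p s) ≤ muSum p s := fun hy => by
    simp only [xMu1, pt, Expr.eval_sub, Expr.eval_mul, Expr.eval_frac, Expr.eval_var,
      List.getD_cons_zero]
    push_cast
    constructor <;> linarith
  have hm2 : 399 / 50 ≤ ((p : ℝ) + 1) * s ^ 2 →
      0 ≤ xMu2.eval (pt p s) ∧ xMu2.eval (pt p s) ≤ muSum p s := fun hy => by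
    simp only [xMu2, xMu1, pt, Expr.eval_add, Expr.eval_sub, Expr.eval_mul, Expr.eval_frac,
      Expr.eval_var, List.getD_cons_zero]
    push_cast
    constructor <;> linarith
  have hm3 : 334 / 25 ≤ ((p : ℝ) + 1) * s ^ 2 →
      0 ≤ xMu3.eval (pt p s) ∧ xMu3.eval (pt p s) ≤ muSum p s := fun hy => by
    simp only [xMu3, Expr.eval_frac]
    push_cast
    constructor <;> linarith
  have hye : ((p : ℝ) + 1) * s ^ 2 * (1 / ((p : ℝ) + 1)) ≤ 2 / 5 := hzy.le.trans hz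
  have small : ∀ W : Expr, ∀ c0 c1 : ℝ, W.eval (pt p s) ≤ c0 + c1 * (((p : ℝ) + 1) * s ^ 2) →
      0 ≤ c1 → c0 + c1 * 40 ≤ 100 → ((p : ℝ) + 1) * s ^ 2 ≤ 40 →
      W.eval (pt p s) - 1 ≤ (p : ℝ) + 1 := fun W c0 c1 h1 h2 h3 h4 => by
    linarith [mul_le_mul_of_nonneg_left h4 h2]
  have hy := hlo
  have hy4 := hlo
  rcases le_total (((p : ℝ) + 1) * s ^ 2) (334 / 25) with hy5 | hy5
  · have g : ∀ {a : Expr} {T : Tree}, onBox a 399 668 50 T = true → 0 ≤ a.eval (pt p s) :=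
      fun hc => onBox_nonneg hc _ (by push_cast; linarith) (by push_cast; linarith) he0.le he
    have lo := hy4
    obtain ⟨hga, hb⟩ := eval_near p hp (s := s) (by linarith)
    obtain ⟨hpl, hdv⟩ := eval_low p hp (s := s) (by linarith)
    refine section_le hp h h0 hell hz xGa xB0 xPlA xDhA xMu2 xMu2 xW3 hga hb hpl hdv (hm2 lo) (hm2 lo)
      (inv_rate_le_affine hp xW3 h h0 hell (by linarith) (g cert5_V1) (g cert5_VW)) ?_
      (g cert5_B) (g cert5_A) (g cert5_K) (Or.inr ⟨g cert5_P, g cert5_D⟩)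
      (g cert5_B) (Or.inr ⟨g cert5_L2, g cert5_Q2, g cert5_E2⟩)
    refine small _ 18 2 ?_ (by norm_num) (by norm_num) (by linarith)
    simp only [xW3, pt, Expr.eval_sub, Expr.eval_mul, Expr.eval_add, Expr.eval_frac, Expr.eval_num,
      Expr.eval_var, List.getD_cons_zero, List.getD_cons_succ]
    push_cast
    linarith
  have hy6 := hhi
  have g : ∀ {a : Expr} {T : Tree}, onBox a 334 400 25 T = true → 0 ≤ a.eval (pt p s) :=
    fun hc => onBox_nonneg hc _ (by push_cast; linarith) (by push_cast; linarith) he0.le he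
  have lo := hy5
  obtain ⟨hga, hb⟩ := eval_near p hp (s := s) (by linarith)
  obtain ⟨hpl, hdv⟩ := eval_high p hp (s := s) (by linarith)
  refine section_le hp h h0 hell hz xGa xB0 xPlB xDhB xMu3 xMu3 xW4 hga hb hpl hdv (hm3 lo) (hm3 lo)
    (inv_rate_le_affine hp xW4 h h0 hell (by linarith) (g cert6_V1) (g cert6_VW)) ?_
    (g cert6_B) (g cert6_A) (g cert6_K) (Or.inr ⟨g cert6_P, g cert6_D⟩)
    (g cert6_B) (Or.inr ⟨g cert6_L2, g cert6_Q2, g cert6_E2⟩)
  refine small _ 18 2 ?_ (by norm_num) (by norm_num) (by linarith)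
  simp only [xW4, pt, Expr.eval_sub, Expr.eval_mul, Expr.eval_add, Expr.eval_frac, Expr.eval_num,
    Expr.eval_var, List.getD_cons_zero, List.getD_cons_succ]
  push_cast
  linarith

/-- Up to `y = 40`. -/
theorem bulk_outer (hp : 98 ≤ p) {ell s t a r q : ℝ} (h : FlatState p ell s t a r q)
    (h0 : 0 ≤ ell) (hell : ell ≤ 6 / ((p : ℝ) + 1)) (hz : s ^ 2 ≤ 2 / 5) (hlo : 16 ≤ ((p : ℝ) + 1) * s ^ 2) (hhi : ((p : ℝ) + 1) * s ^ 2 ≤ 40) :
    ell * (wS p (arc s) - massF p s) - (1 / ((p : ℝ) + 1)) ^ 2 * xR.eval (pt p s) ≤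
      cancelExpr p (gamC p) (nuC p) ell (fun s t => s + 1 * (s - t)) (fun _ _ => 1 + 1)
        (fun _ _ => -1) (quadPot (potK p) (potB p)) (quadPotS (potK p) (potK' p) (potB p) (potB' p))
        (quadPotT (potK p) (potB p)) s t a r := by
  obtain ⟨hy0, he0, he, hzy⟩ := pt_mem hp s
  have hpp : (98 : ℝ) ≤ p := by exact_mod_cast hp
  obtain ⟨hM1, hM2⟩ := muSum_ge p s
  have hM0 := muSum_nonneg p s
  have hO : 0 ≤ xO.eval (pt p s) ∧ xO.eval (pt p s) ≤ muSum p s := by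
    simp [xO, hM0]
  have hm1 : 99 / 20 ≤ ((p : ℝ) + 1) * s ^ 2 →
      0 ≤ xMu1.eval (pt p s) ∧ xMu1.eval (pt p s) ≤ muSum p s := fun hy => by
    simp only [xMu1, pt, Expr.eval_sub, Expr.eval_mul, Expr.eval_frac, Expr.eval_var,
      List.getD_cons_zero]
    push_cast
    constructor <;> linarith
  have hm2 : 399 / 50 ≤ ((p : ℝ) + 1) * s ^ 2 →
      0 ≤ xMu2.eval (pt p s) ∧ xMu2.eval (pt p s) ≤ muSum p s := fun hy => by
    simp only [xMu2, xMu1, pt, Expr.eval_add, Expr.eval_sub, Expr.eval_mul, Expr.eval_frac,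
      Expr.eval_var, List.getD_cons_zero]
    push_cast
    constructor <;> linarith
  have hm3 : 334 / 25 ≤ ((p : ℝ) + 1) * s ^ 2 →
      0 ≤ xMu3.eval (pt p s) ∧ xMu3.eval (pt p s) ≤ muSum p s := fun hy => by
    simp only [xMu3, Expr.eval_frac]
    push_cast
    constructor <;> linarith
  have hye : ((p : ℝ) + 1) * s ^ 2 * (1 / ((p : ℝ) + 1)) ≤ 2 / 5 := hzy.le.trans hz
  have small : ∀ W : Expr, ∀ c0 c1 : ℝ, W.eval (pt p s) ≤ c0 + c1 * (((p : ℝ) + 1) * s ^ 2) →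
      0 ≤ c1 → c0 + c1 * 40 ≤ 100 → ((p : ℝ) + 1) * s ^ 2 ≤ 40 →
      W.eval (pt p s) - 1 ≤ (p : ℝ) + 1 := fun W c0 c1 h1 h2 h3 h4 => by
    linarith [mul_le_mul_of_nonneg_left h4 h2]
  have hy := hlo
  have hy6 := hlo
  rcases le_total (((p : ℝ) + 1) * s ^ 2) (28) with hy7 | hy7
  · have g : ∀ {a : Expr} {T : Tree}, onBox a 16 28 1 T = true → 0 ≤ a.eval (pt p s) :=
      fun hc => onBox_nonneg hc _ (by push_cast; linarith) (by push_cast; linarith) he0.le he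
    have lo := hy6
    obtain ⟨hga, hb⟩ := eval_near p hp (s := s) (by linarith)
    obtain ⟨hpl, hdv⟩ := eval_high p hp (s := s) (by linarith)
    refine section_le hp h h0 hell hz xGa xB0 xPlB xDhB xO xMu3 xW5 hga hb hpl hdv hO (hm3 (by linarith))
      (inv_rate_le_affine hp xW5 h h0 hell (by linarith) (g cert7_V1) (g cert7_VW)) ?_
      (g cert7_B) (g cert7_A) (g cert7_K) (Or.inr ⟨g cert7_P, g cert7_D⟩)
      (g cert7_B2) (Or.inr ⟨g cert7_L2, g cert7_Q2, g cert7_E2⟩)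
    refine small _ 18 2 ?_ (by norm_num) (by norm_num) (by linarith)
    simp only [xW5, pt, Expr.eval_sub, Expr.eval_mul, Expr.eval_add, Expr.eval_frac, Expr.eval_num,
      Expr.eval_var, List.getD_cons_zero, List.getD_cons_succ]
    push_cast
    linarith
  have hy8 := hhi
  have g : ∀ {a : Expr} {T : Tree}, onBox a 28 40 1 T = true → 0 ≤ a.eval (pt p s) :=
    fun hc => onBox_nonneg hc _ (by push_cast; linarith) (by push_cast; linarith) he0.le he
  have lo := hy7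
  obtain ⟨hga, hb⟩ := eval_near p hp (s := s) (by linarith)
  obtain ⟨hpl, hdv⟩ := eval_high p hp (s := s) (by linarith)
  refine section_le hp h h0 hell hz xGa xB0 xPlB xDhB xO xMu3 xW6 hga hb hpl hdv hO (hm3 (by linarith))
    (inv_rate_le_affine hp xW6 h h0 hell (by linarith) (g cert8_V1) (g cert8_VW)) ?_
    (g cert8_B) (g cert8_A) (g cert8_K) (Or.inr ⟨g cert8_P, g cert8_D⟩)
    (g cert8_B2) (Or.inr ⟨g cert8_L2, g cert8_Q2, g cert8_E2⟩)
  refine small _ 18 2 ?_ (by norm_num) (by norm_num) (by linarith)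
  simp only [xW6, pt, Expr.eval_sub, Expr.eval_mul, Expr.eval_add, Expr.eval_frac, Expr.eval_num,
    Expr.eval_var, List.getD_cons_zero, List.getD_cons_succ]
  push_cast
  linarith

/-- Beyond `y = 40`. -/
theorem bulk_far (hp : 98 ≤ p) {ell s t a r q : ℝ} (h : FlatState p ell s t a r q)
    (h0 : 0 ≤ ell) (hell : ell ≤ 6 / ((p : ℝ) + 1)) (hz : s ^ 2 ≤ 2 / 5) (hy8 : 40 ≤ ((p : ℝ) + 1) * s ^ 2) :
    ell * (wS p (arc s) - massF p s) - (1 / ((p : ℝ) + 1)) ^ 2 * xR.eval (pt p s) ≤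
      cancelExpr p (gamC p) (nuC p) ell (fun s t => s + 1 * (s - t)) (fun _ _ => 1 + 1)
        (fun _ _ => -1) (quadPot (potK p) (potB p)) (quadPotS (potK p) (potK' p) (potB p) (potB' p))
        (quadPotT (potK p) (potB p)) s t a r := by
  obtain ⟨hy0, he0, he, hzy⟩ := pt_mem hp s
  have hpp : (98 : ℝ) ≤ p := by exact_mod_cast hp
  obtain ⟨hM1, hM2⟩ := muSum_ge p s
  have hM0 := muSum_nonneg p s
  have hO : 0 ≤ xO.eval (pt p s) ∧ xO.eval (pt p s) ≤ muSum p s := by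
    simp [xO, hM0]
  have hm1 : 99 / 20 ≤ ((p : ℝ) + 1) * s ^ 2 →
      0 ≤ xMu1.eval (pt p s) ∧ xMu1.eval (pt p s) ≤ muSum p s := fun hy => by
    simp only [xMu1, pt, Expr.eval_sub, Expr.eval_mul, Expr.eval_frac, Expr.eval_var,
      List.getD_cons_zero]
    push_cast
    constructor <;> linarith
  have hm2 : 399 / 50 ≤ ((p : ℝ) + 1) * s ^ 2 →
      0 ≤ xMu2.eval (pt p s) ∧ xMu2.eval (pt p s) ≤ muSum p s := fun hy => by
    simp only [xMu2, xMu1, pt, Expr.eval_add, Expr.eval_sub, Expr.eval_mul, Expr.eval_frac,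
      Expr.eval_var, List.getD_cons_zero]
    push_cast
    constructor <;> linarith
  have hm3 : 334 / 25 ≤ ((p : ℝ) + 1) * s ^ 2 →
      0 ≤ xMu3.eval (pt p s) ∧ xMu3.eval (pt p s) ≤ muSum p s := fun hy => by
    simp only [xMu3, Expr.eval_frac]
    push_cast
    constructor <;> linarith
  have hye : ((p : ℝ) + 1) * s ^ 2 * (1 / ((p : ℝ) + 1)) ≤ 2 / 5 := hzy.le.trans hz
  have small : ∀ W : Expr, ∀ c0 c1 : ℝ, W.eval (pt p s) ≤ c0 + c1 * (((p : ℝ) + 1) * s ^ 2) →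
      0 ≤ c1 → c0 + c1 * 40 ≤ 100 → ((p : ℝ) + 1) * s ^ 2 ≤ 40 →
      W.eval (pt p s) - 1 ≤ (p : ℝ) + 1 := fun W c0 c1 h1 h2 h3 h4 => by
    linarith [mul_le_mul_of_nonneg_left h4 h2]
  have g : ∀ {a : Expr} {T : Tree}, onFar a 2 5 T = true → 0 ≤ a.eval (pt p s) :=
    fun hc => onFar_nonneg hc hy8 he0.le (by push_cast; linarith)
  obtain ⟨hga, hb⟩ := eval_far p hp hy8
  obtain ⟨hpl, hdv⟩ := eval_high p hp (s := s) (by linarith)
  refine section_le hp h h0 hell hz xGaF xB0F xPlB xDhB xO xMu3 xW7 hga hb hpl hdv hO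
    (hm3 (by linarith)) (inv_rate_le_affine hp xW7 h h0 hell (by linarith) (g cert9_V1) (g cert9_VW))
    ?_ (g cert9_B) (g cert9_A) (g cert9_K) (Or.inr ⟨g cert9_P, g cert9_D⟩) (g cert9_B2)
    (Or.inr ⟨g cert9_L2, g cert9_Q2, g cert9_E2⟩)
  simp only [xW7, xZ, pt, Expr.eval_sub, Expr.eval_mul, Expr.eval_add, Expr.eval_pow,
    Expr.eval_frac, Expr.eval_var, List.getD_cons_zero, List.getD_cons_succ, hzy]
  push_cast
  have h1 : 131 / 5000 - 1117 / 10000 * s ^ 2 + 18 / 25 * (s ^ 2) ^ 2 ≤ 1 := by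
    nlinarith [sq_nonneg s]
  have h2 := mul_le_mul_of_nonneg_left hz (show (0 : ℝ) ≤ (p : ℝ) + 1 by positivity)
  linarith [mul_le_mul_of_nonneg_left h1 hy0]


/-- In the bulk the cancelled cell is at least `ell (wS - M) - e ^ 2 R (y, e)`. -/
theorem bulk_pointwise (hp : 98 ≤ p) {ell s t a r q : ℝ} (h : FlatState p ell s t a r q)
    (h0 : 0 ≤ ell) (hell : ell ≤ 6 / ((p : ℝ) + 1)) (hz : s ^ 2 ≤ 2 / 5) :
    ell * (wS p (arc s) - massF p s) - (1 / ((p : ℝ) + 1)) ^ 2 * xR.eval (pt p s) ≤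
      cancelExpr p (gamC p) (nuC p) ell (fun s t => s + 1 * (s - t)) (fun _ _ => 1 + 1)
        (fun _ _ => -1) (quadPot (potK p) (potB p)) (quadPotS (potK p) (potK' p) (potB p) (potB' p))
        (quadPotT (potK p) (potB p)) s t a r := by
  rcases le_total (((p : ℝ) + 1) * s ^ 2) (49 / 25) with hy | hy
  · exact bulk_centre hp h h0 hell hz hy
  rcases le_total (((p : ℝ) + 1) * s ^ 2) (399 / 50) with h1 | h1
  · exact bulk_inner hp h h0 hell hz hy h1
  rcases le_total (((p : ℝ) + 1) * s ^ 2) 16 with h2 | h2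
  · exact bulk_middle hp h h0 hell hz h1 h2
  rcases le_total (((p : ℝ) + 1) * s ^ 2) 40 with h3 | h3
  · exact bulk_outer hp h h0 hell hz h2 h3
  exact bulk_far hp h h0 hell hz h3

end Vale.Agent.P237.Petty.Cor.Mid36
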