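import Vale.Agent.P100.Bernstein.Cert

/-!
# P237: the polynomials of the cell between three and six over the dimension

All coefficients are polynomials in `y = m s ^ 2`, `e = 1 / m` and, beyond `y = 40`, `om = 40 / y`.
-/

namespace Vale.Agent.P237.Petty.Cor.Mid36

open Vale.Agent.P100.Bernstein

/-- `y = m s ^ 2`. -/
abbrev vY : Expr := .var 0

/-- `e = 1 / m`. -/
abbrev vE : Expr := .var 1

/-- `40 / y`. -/
abbrev vOm : Expr := .var 2

/-- `s ^ 2`. -/
def xZ : Expr :=
  vY * vE

/-- The square of the half circle. -/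
def xC : Expr :=
  (.num 1) - xZ

/-- Above the reciprocal of the half circle. -/
def xPu : Expr :=
  ((((.num 1) + ((.frac 1 2) * xZ)) + ((.frac 3 8) * xZ ^ 2)) + ((.frac 5 16) * xZ ^ 3)) + ((.frac 43 100) * xZ ^ 4)

/-- The lower bound of the Fisher multiplier. -/
def xNl : Expr :=
  (.frac 16 25) + ((.frac 161 200) * vE)

/-- The upper bound of the Fisher multiplier. -/
def xNh : Expr :=
  (.frac 16 25) + ((.frac 97 100) * vE)

/-- The pole part of the square potential. -/
def xGa : Expr :=
  ((.frac 67 50) * xC) + ((.frac 47 1000) * vY)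

/-- The coefficient of the square of `d / s`, without the cut. -/
def xB0 : Expr :=
  (xC * (((.frac 67 50) * (((.num 1) + vY) + xZ)) - (xNh * (vY + ((.num 3) * xZ))))) + (((.frac 47 1000) * vY) * (vY - xC))

/-- The cut off of the pole part, from `y = 40` on. -/
def xPhi : Expr :=
  (.num 80) - ((.num 40) * vOm)

/-- The pole part beyond `y = 40`. -/
def xGaF : Expr :=
  ((.frac 67 50) * xC) + ((.frac 47 1000) * xPhi)

/-- The coefficient of the square beyond `y = 40`. -/
def xB0F : Expr :=
  (xC * (((.frac 67 50) * (((.num 1) + vY) + xZ)) - (xNh * (vY + ((.num 3) * xZ))))) + ((.frac 47 1000) * ((xC * ((.num 80) - ((.num 120) * vOm))) + (vY * xPhi)))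

/-- Above the exponential of twice the value over the order. -/
def xEh : Expr :=
  (.num 1) + ((.num 13) * (vE) ^ 2)

/-- The potential up to the knot, over `e`. -/
def xPlA : Expr :=
  (.num 0) + (vY * ((.frac 91 50) + (vY * ((.frac 603 2000) + (vY * ((.frac (-14943) 100000) + ((.frac 757 100000) * vY)))))))

/-- Its slope. -/
def xDpA : Expr :=
  (.frac 91 50) + (vY * ((.frac 603 1000) + (vY * ((.frac (-44829) 100000) + ((.frac 757 25000) * vY)))))

/-- The potential beyond the knot, over `e`. -/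
def xPlB : Expr :=
  (.frac (-315694081407) 4882812500) + ((.frac 807540153 390625000) * vY)

/-- Its slope. -/
def xDpB : Expr :=
  (.frac 807540153 390625000)

/-- The coefficient of `d`, times `c ^ 2 / s`, up to the knot. -/
def xDhA : Expr :=
  ((xC * (((((.frac (-203) 50) * (((.frac 1 2) + ((.frac 3 4) * xZ)) + ((.frac 15 16) * xZ ^ 2))) + ((.num 2) * xDpA)) - (.frac 103 20)) - ((.frac (-141) 50) * vE))) + ((.frac 203 100) * (vY * (((.frac 3 2) + ((.frac 3 8) * xZ)) + ((.frac 5 16) * xZ ^ 2))))) - xPlA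

/-- The coefficient of `d`, times `c ^ 2 / s`, beyond the knot. -/
def xDhB : Expr :=
  ((xC * (((((.frac (-203) 50) * (((.frac 1 2) + ((.frac 3 4) * xZ)) + ((.frac 15 16) * xZ ^ 2))) + ((.num 2) * xDpB)) - (.frac 103 20)) - ((.frac (-141) 50) * vE))) + ((.frac 203 100) * (vY * (((.frac 3 2) + ((.frac 3 8) * xZ)) + ((.frac 5 16) * xZ ^ 2))))) - xPlB

/-- The multiplier after the first knee. -/
def xMu1 : Expr :=
  (.frac 121 25) * (vY - (.frac 99 20))

/-- The multiplier after the second knee. -/
def xMu2 : Expr :=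
  xMu1 + ((.frac 487 100) * (vY - (.frac 399 50)))

/-- The multiplier at its top. -/
def xMu3 : Expr :=
  (.frac 13381 200)

/-- No multiplier. -/
def xO : Expr :=
  (.num 0)

/-- The slope in `e` of the bound of `v` near the centre. -/
def xBeta : Expr :=
  (.frac 631 50) + (vY * ((.frac 903 100) + (vY * ((.frac 101 50) + ((.frac 109 100) * vY)))))

/-- The bound of `v` near the centre. -/
def xW0 : Expr :=
  (.num 1) + (vE * xBeta)

/-- An affine bound of `v`. -/
def xW1 : Expr :=
  ((.frac 249 250) + ((.frac 1081 10000) * vY)) + (vE * ((.frac 69 2) + ((.frac 661 100) * vY)))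

/-- An affine bound of `v`. -/
def xW2 : Expr :=
  ((.frac 53 50) + ((.frac 191 2000) * vY)) + (vE * ((.frac 161 5) + ((.frac 71 10) * vY)))

/-- An affine bound of `v`. -/
def xW3 : Expr :=
  ((.frac 1197 1000) + ((.frac 79 1000) * vY)) + (vE * ((.frac 257 10) + ((.frac 393 50) * vY)))

/-- An affine bound of `v`. -/
def xW4 : Expr :=
  ((.frac 1317 1000) + ((.frac 139 2000) * vY)) + (vE * ((.frac 74 5) + ((.frac 871 100) * vY)))

/-- An affine bound of `v`. -/
def xW5 : Expr :=
  ((.frac 1517 1000) + ((.frac 73 1250) * vY)) + (vE * ((.frac (-229) 10) + ((.frac 547 50) * vY)))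

/-- An affine bound of `v`. -/
def xW6 : Expr :=
  ((.frac 226 125) + ((.frac 477 10000) * vY)) + (vE * ((.num (-169)) + ((.frac 81 5) * vY)))

/-- A bound of `v` far out. -/
def xW7 : Expr :=
  (.frac 101 20) + (vY * (((.frac 131 5000) - ((.frac 1117 10000) * xZ)) + ((.frac 18 25) * xZ ^ 2)))

/-- The remainder, over `e ^ 2`. -/
def xR : Expr :=
  ((.frac 4688429 15625000000) + (vY * ((.frac 158931851 200000000) + (vY * ((.frac (-27433281) 20000000) + (vY * ((.frac 207218229 100000000) + (vY * ((.frac (-103801881) 100000000) + (vY * ((.frac 51758009 200000000) + (vY * ((.frac (-183626957) 5000000000) + (vY * ((.frac 310142447 100000000000) + (vY * ((.frac (-38898981) 250000000000) + (vY * ((.frac 3597289 800000000000) + (vY * ((.frac (-137182273) 2000000000000000) + (vY * (.frac 212818953 500000000000000000))))))))))))))))))))))) + (xZ * ((.frac 39455293 1250000) + (vY * ((.frac (-663620361) 10000000) + (vY * ((.frac 473422503 10000000) + (vY * ((.frac (-144980233) 10000000) + (vY * ((.frac 195849121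 100000000) + (vY * ((.frac (-52851521) 500000000) + (vY * (.frac 197973663 100000000000))))))))))))))

/-- An upper bound of `exp ell`. -/
def xE : Expr :=
  (.num 1) + ((.frac 619 100) * vE)

/-- The bound of `v` near the centre, cleared. -/
def xVok : Expr :=
  (xW0 * xC) - (xE * (xC + ((((.num 6) * vE) * (((((((.num 1) + ((.frac 2551 10000) * vY)) + ((.frac 1 2) * (((.frac 2551 10000) * vY)) ^ 2)) + ((.frac 1 6) * (((.frac 2551 10000) * vY)) ^ 3)) + ((.frac 5 96) * (((.frac 2551 10000) * vY)) ^ 4))) ^ 2 * (((((.num 1) - ((.frac 1 6) * vY)) + ((.frac 1 40) * (vY) ^ 2)) - ((.frac 1 336) * (vY) ^ 3)) + ((.frac 1 3456) * (vY) ^ 4)))) * ((vY + ((.num 2) * xZ)) + (.num 1)))))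

/-- The coefficient of the square with a multiplier of the cut. -/
def xBc (b mu : Expr) : Expr := b - .frac 1 2 * (mu * xZ)

/-- The coefficient of `u ^ 2 / v` for `v ≤ 1`. -/
def xA1 (mu : Expr) : Expr :=
  4 * xNl * xC - .frac 203 200 * xPu - mu * (vE * xEh * (.frac 1 2 + 2 * vE))

/-- The coefficient of `u`, over `e`, for `v ≤ 1`. -/
def xl1 (pl mu : Expr) : Expr := pl + mu * xEh + .frac 8729 10000 * (vY * xZ ^ 3)

/-- The coefficient of `u ^ 2` after the square for `v ≤ 1`. -/
def xK1 (ga b mu : Expr) : Expr := xBc b mu * xA1 mu - ga ^ 2 * xC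

/-- The discriminant for `v ≤ 1`. -/
def xP1 (ga b pl dv mu : Expr) : Expr :=
  (4 * xBc b mu * xC * xR - vY ^ 2 * (dv - mu) ^ 2) * xK1 ga b mu -
    xC * (xBc b mu * xl1 pl mu + vY * (dv - mu) * ga) ^ 2

/-- The discriminant for `v ≤ 1` with the coefficient of `d` removed by the lower box. -/
def xP1b (ga b pl dv mu : Expr) : Expr :=
  (4 * xBc b mu * xC * (xR - .frac 619 100 * (dv - mu))) * xK1 ga b mu -
    xC * (xBc b mu * xl1 pl mu) ^ 2

/-- Twice `w + 2` times the coefficient of `u ^ 2 / v` at `v = w`. -/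
def xN (mu w : Expr) : Expr :=
  2 * (w + 2) * (4 * xNl * xC - mu * vE ^ 2) - (.frac 203 100 * xPu + mu * vE) * (2 * w + 1)

/-- The coefficient of `u ^ 2` after the square for `1 ≤ v`, times `2 w (w + 2)`. -/
def xK2 (ga b mu w : Expr) : Expr := xBc b mu * xN mu w - 2 * w * (w + 2) * (ga ^ 2 * xC)

/-- The coefficient of `u` after the square for `1 ≤ v`. -/
def xL2 (ga b pl dv mu : Expr) : Expr := xBc b mu * (pl + mu) + vY * (dv - mu) * ga

/-- The constant after the square for `1 ≤ v`, over `e ^ 2`. -/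
def xQ2 (b dv mu : Expr) : Expr := 4 * xBc b mu * xC * xR - vY ^ 2 * (dv - mu) ^ 2

/-- The discriminant for `1 ≤ v`. -/
def xP2 (ga b pl dv mu w : Expr) : Expr :=
  xQ2 b dv mu * xK2 ga b mu w - 2 * w * (w + 2) * (xC * xL2 ga b pl dv mu ^ 2)

/-- The value at `v = 1 + e xBeta`, over `e ^ 2`. -/
def xEnd0 (ga b pl dv mu w : Expr) : Expr :=
  2 * w * (w + 2) * (xQ2 b dv mu + 4 * xC * xL2 ga b pl dv mu * xBeta) +
    4 * xC * xK2 ga b mu w * xBeta ^ 2

/-- The value at `v = w`. -/
def xEnd (ga b pl dv mu w : Expr) : Expr :=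
  2 * w * (w + 2) * (vE ^ 2 * xQ2 b dv mu + 4 * xC * vE * xL2 ga b pl dv mu * (w - 1)) +
    4 * xC * xK2 ga b mu w * (w - 1) ^ 2

/-- The bound of `v` by the hazard, squared and cleared. -/
def xWok (w : Expr) : Expr :=
  w ^ 2 * xC ^ 2 * vY - (xE * (.frac 5703 10000 + .frac 383 25 * vE) * (vY + 2 * xZ + 1)) ^ 2

/-- A variable change to `z = y e` and `om = 40 / y`, with the power of `om`. -/
def far : Expr → Expr × ℕ
  | .num c => (.num c, 0)
  | .frac c d => (.frac c d, 0)
  | .var i =>
    if i = 0 then (40, 1) else if i = 1 then (.frac 1 40 * .var 0 * .var 1, 0) else (.var 1, 0)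
  | .add a b => (.add ((far a).1 * .var 1 ^ ((far b).2 - (far a).2))
      ((far b).1 * .var 1 ^ ((far a).2 - (far b).2)), max (far a).2 (far b).2)
  | .sub a b => (.sub ((far a).1 * .var 1 ^ ((far b).2 - (far a).2))
      ((far b).1 * .var 1 ^ ((far a).2 - (far b).2)), max (far a).2 (far b).2)
  | .neg a => (.neg (far a).1, (far a).2)
  | .mul a b => (.mul (far a).1 (far b).1, (far a).2 + (far b).2)
  | .pow a k => (.pow (far a).1 k, (far a).2 * k)

theorem far_eval (a : Expr) {y e z om : ℝ} (hy : y * om = 40) (he : e = 1 / 40 * z * om) :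
    a.ok 3 = true → (far a).1.eval [z, om] = om ^ (far a).2 * a.eval [y, e, om] := by
  induction a with
  | num c => simp [far, Expr.eval]
  | frac c d => simp [far, Expr.eval]
  | var i =>
    intro h
    simp only [Expr.ok, decide_eq_true_eq] at h
    rcases i with _ | _ | _ | i
    · simp [far, Expr.eval, ← hy, mul_comm]
    · simp [far, Expr.eval, he]
    · simp [far, Expr.eval]
    · omega
  | add a b iha ihb =>
    intro h
    simp only [Expr.ok, Bool.and_eq_true] at h
    show (far a).1.eval [z, om] * om ^ ((far b).2 - (far a).2) +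
      (far b).1.eval [z, om] * om ^ ((far a).2 - (far b).2) =
      om ^ max (far a).2 (far b).2 * (a.eval [y, e, om] + b.eval [y, e, om])
    rw [iha h.1, ihb h.2, mul_add, mul_right_comm, ← pow_add, mul_right_comm (om ^ _) (b.eval _),
      ← pow_add, show (far a).2 + ((far b).2 - (far a).2) = max (far a).2 (far b).2 by omega,
      show (far b).2 + ((far a).2 - (far b).2) = max (far a).2 (far b).2 by omega]
  | sub a b iha ihb =>
    intro h
    simp only [Expr.ok, Bool.and_eq_true] at h
    show (far a).1.eval [z, om] * om ^ ((far b).2 - (far a).2) -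
      (far b).1.eval [z, om] * om ^ ((far a).2 - (far b).2) =
      om ^ max (far a).2 (far b).2 * (a.eval [y, e, om] - b.eval [y, e, om])
    rw [iha h.1, ihb h.2, mul_sub, mul_right_comm, ← pow_add, mul_right_comm (om ^ _) (b.eval _),
      ← pow_add, show (far a).2 + ((far b).2 - (far a).2) = max (far a).2 (far b).2 by omega,
      show (far b).2 + ((far a).2 - (far b).2) = max (far a).2 (far b).2 by omega]
  | neg a ih =>
    intro h
    simp only [Expr.ok] at h
    show -(far a).1.eval [z, om] = om ^ (far a).2 * -a.eval [y, e, om]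
    rw [ih h, mul_neg]
  | mul a b iha ihb =>
    intro h
    simp only [Expr.ok, Bool.and_eq_true] at h
    show (far a).1.eval [z, om] * (far b).1.eval [z, om] =
      om ^ ((far a).2 + (far b).2) * (a.eval [y, e, om] * b.eval [y, e, om])
    rw [iha h.1, ihb h.2, pow_add]
    ring
  | pow a k ih =>
    intro h
    simp only [Expr.ok] at h
    show (far a).1.eval [z, om] ^ k = om ^ ((far a).2 * k) * a.eval [y, e, om] ^ k
    rw [ih h, mul_pow, pow_mul]

/-- An expression in the first two variables does not see the third. -/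
theorem eval_two (a : Expr) (y e w : ℝ) : a.ok 2 = true → a.eval [y, e, w] = a.eval [y, e] := by
  induction a with
  | num c => simp [Expr.eval]
  | frac c d => simp [Expr.eval]
  | var i =>
    intro h
    simp only [Expr.ok, decide_eq_true_eq] at h
    rcases i with _ | _ | i
    · simp [Expr.eval]
    · simp [Expr.eval]
    · omega
  | add a b iha ihb | sub a b iha ihb | mul a b iha ihb =>
    intro h
    simp only [Expr.ok, Bool.and_eq_true] at h
    simp [Expr.eval, iha h.1, ihb h.2]
  | neg a ih | pow a k ih =>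
    intro h
    simp only [Expr.ok] at h
    simp [Expr.eval, ih h]

/-- A test on `[lo / den, hi / den] × [0, 1 / 99]`. -/
def onBox (a : Expr) (lo hi : ℤ) (den : ℕ) (T : Tree) : Bool :=
  a.ok 2 && certify false a [⟨lo, hi, den⟩, ⟨0, 1, 99⟩] T

theorem onBox_nonneg {a : Expr} {lo hi : ℤ} {den : ℕ} {T : Tree} (h : onBox a lo hi den T = true)
    {y e : ℝ} (w : ℝ) (h1 : (lo : ℝ) ≤ den * y) (h2 : (den : ℝ) * y ≤ hi) (he0 : 0 ≤ e)
    (he : e ≤ 1 / 99) : 0 ≤ a.eval [y, e, w] := by
  simp only [onBox, Bool.and_eq_true] at h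
  rw [eval_two a y e w h.1]
  exact nonneg_of_certify h.2 ⟨by simpa using h1, by simpa using h2, by simpa using he0,
    by simp; linarith, trivial⟩

/-- A test for `40 ≤ y`, `y e ≤ zn / zd`. -/
def onFar (a : Expr) (zn : ℤ) (zd : ℕ) (T : Tree) : Bool :=
  a.ok 3 && certify false (far a).1 [⟨0, zn, zd⟩, ⟨0, 1, 1⟩] T

theorem onFar_nonneg {a : Expr} {zn : ℤ} {zd : ℕ} {T : Tree} (h : onFar a zn zd T = true) {y e : ℝ}
    (hy : 40 ≤ y) (he0 : 0 ≤ e) (hz : (zd : ℝ) * (y * e) ≤ zn) :
    0 ≤ a.eval [y, e, 40 / y] := by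
  simp only [onFar, Bool.and_eq_true] at h
  have hy0 : 0 < y := by linarith
  have hom : 0 < 40 / y := by positivity
  have h1 : (far a).1.eval [y * e, 40 / y] = (40 / y) ^ (far a).2 * a.eval [y, e, 40 / y] :=
    far_eval a (by field_simp) (by field_simp) h.1
  have h2 := nonneg_of_certify h.2 (x := [y * e, 40 / y]) ⟨by simp; positivity, by simpa using hz,
    by simp; positivity, by simp; rw [div_le_one hy0]; exact hy, trivial⟩
  rw [h1] at h2
  exact nonneg_of_mul_nonneg_right (by linarith) (pow_pos hom _)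

end Vale.Agent.P237.Petty.Cor.Mid36
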