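import Vale.Agent.P237.Petty.Cor.Mid36.VBound
import Vale.Agent.P237.Petty.Cor.Mid36.Hinge

/-!
# P237: the two pieces of a state in the cell between three and six over the dimension

For `v ≤ 1` the lower box may remove a share of the coefficient of `d`; for `1 ≤ v ≤ w` the
quadratic is controlled on the interval.
-/

namespace Vale.Agent.P237.Petty.Cor.Mid36

open Set
open Ident (half rate)
open Vale.Agent.P100.Bernstein

variable {p : ℕ}

/-- The hinges under the multiplier. -/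
noncomputable def muSum (p : ℕ) (s : ℝ) : ℝ :=
  121 / 25 * hinge p (99 / 20) s + 487 / 100 * hinge p (399 / 50) s

theorem muSum_nonneg (p : ℕ) (s : ℝ) : 0 ≤ muSum p s := by
  have := hinge_nonneg p (99 / 20) s
  have := hinge_nonneg p (399 / 50) s
  unfold muSum
  positivity

/-- The function against `ell`. -/
noncomputable def massF (p : ℕ) (s : ℝ) : ℝ :=
  1 / ((p : ℝ) + 1) * (1 + 12 * (1 / ((p : ℝ) + 1)) ^ 2) * muSum p s

/-- The exponential in the cut. -/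
theorem exp_cut_le {m ell : ℝ} (hm : 99 ≤ m) (h0 : 0 ≤ ell) (hell : ell ≤ 6 / m) :
    Real.exp (2 * ell / m) ≤ 1 + 13 * (1 / m) ^ 2 := by
  have hm0 : 0 < m := by linarith
  have hx0 : 0 ≤ 2 * ell / m := by positivity
  have hb : 2 * ell / m ≤ 12 * (1 / m) ^ 2 := by
    have h := mul_le_mul_of_nonneg_right hell (show 0 ≤ 2 / m by positivity)
    rw [show ell * (2 / m) = 2 * ell / m by ring, show 6 / m * (2 / m) = 12 * (1 / m) ^ 2 by ring] at h
    exact h
  have he : (1 / m) ^ 2 ≤ (1 / 99) ^ 2 :=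
    pow_le_pow_left₀ (by positivity) (one_div_le_one_div_of_le (by norm_num) hm) 2
  have h1 := (abs_le.1 (Real.abs_exp_sub_one_sub_id_le (x := 2 * ell / m)
    (by rw [abs_of_nonneg hx0]; linarith))).2
  nlinarith [mul_le_mul hb hb hx0 (by positivity),
    mul_le_mul_of_nonneg_left he (show 0 ≤ (1 / m) ^ 2 by positivity)]

/-- The multiplier is paid by the mass. -/
theorem mult_cost {μ ell : ℝ} {s : ℝ} (hp : 98 ≤ p) (hμ : 0 ≤ μ) (hμs : μ ≤ muSum p s)
    (h0 : 0 ≤ ell) (hell : ell ≤ 6 / ((p : ℝ) + 1)) :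
    1 / ((p : ℝ) + 1) * μ *
        (((p : ℝ) + 1) / 2 * (Real.exp (2 * ell / ((p : ℝ) + 1)) - 1)) ≤ ell * massF p s := by
  have hpp : (98 : ℝ) ≤ p := by exact_mod_cast hp
  have h1 := cut_const_le (m := (p : ℝ) + 1) (by positivity) h0 hell (by nlinarith)
  have h2 := mul_le_mul_of_nonneg_left h1
    (show 0 ≤ 1 / ((p : ℝ) + 1) * μ by positivity)
  have h3 := mul_le_mul_of_nonneg_left hμs
    (show 0 ≤ 1 / ((p : ℝ) + 1) * (ell * (1 + 12 * (1 / ((p : ℝ) + 1)) ^ 2)) by positivity)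
  rw [massF]
  linarith

/-- The state with `1 ≤ v`. -/
theorem high_state (hp : 98 ≤ p) {ell s t a r q : ℝ} (h : FlatState p ell s t a r q) (h0 : 0 ≤ ell)
    (hell : ell ≤ 6 / ((p : ℝ) + 1)) (hz : s ^ 2 ≤ 2 / 5) {μ W R : ℝ} (hμ : 0 ≤ μ)
    (hμs : μ ≤ muSum p s) (hv : 1 ≤ 1 / r) (hvW : 1 / r ≤ W) (hWm : W - 1 ≤ (p : ℝ) + 1)
    (hB : 0 < bF p s - 1 / 2 * (μ * s ^ 2)) {e c P N B L Q : ℝ} (he : e = 1 / ((p : ℝ) + 1))
    (hc : c = 1 - s ^ 2)
    (hP : P = 1 + 1 / 2 * s ^ 2 + 3 / 8 * (s ^ 2) ^ 2 + 5 / 16 * (s ^ 2) ^ 3 +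
      43 / 100 * (s ^ 2) ^ 4)
    (hN : N = 2 * (W + 2) * (4 * (16 / 25 + 161 / 200 * e) * c - μ * e ^ 2) -
      (203 / 100 * P + μ * e) * (2 * W + 1))
    (hBd : B = bF p s - 1 / 2 * (μ * s ^ 2))
    (hL : L = B * (plF (((p : ℝ) + 1) * s ^ 2) + μ) +
      ((p : ℝ) + 1) * s ^ 2 * (dhF p s - μ) * poleF p s)
    (hQ : Q = 4 * B * c * R - (((p : ℝ) + 1) * s ^ 2) ^ 2 * (dhF p s - μ) ^ 2)
    (hcond : (0 < B * N - 2 * W * (W + 2) * (poleF p s ^ 2 * c) ∧
        2 * W * (W + 2) * (c * L ^ 2) ≤ Q * (B * N - 2 * W * (W + 2) * (poleF p s ^ 2 * c))) ∨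
      (0 ≤ L ∧ 0 ≤ Q ∧ 0 ≤ 2 * W * (W + 2) * (e ^ 2 * Q + 4 * c * e * L * (W - 1)) +
        4 * c * (B * N - 2 * W * (W + 2) * (poleF p s ^ 2 * c)) * (W - 1) ^ 2)) :
    ell * (wS p (arc s) - massF p s) - e ^ 2 * R ≤
      cancelExpr p (gamC p) (nuC p) ell (fun s t => s + 1 * (s - t)) (fun _ _ => 1 + 1)
        (fun _ _ => -1) (quadPot (potK p) (potB p)) (quadPotS (potK p) (potK' p) (potB p) (potB' p))
        (quadPotT (potK p) (potB p)) s t a r := by
  refine le_trans ?_ (base_le hp h hz)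
  have hsm := h.state.s_mem
  have hc0 : 0 < c := by rw [hc]; linarith
  have he0 : 0 ≤ e := by rw [he]; positivity
  have hm : (0 : ℝ) < (p : ℝ) + 1 := by positivity
  have hcut := mul_le_mul_of_nonneg_left (cut_high (by omega) h h0 hv (by linarith))
    (show 0 ≤ 1 / ((p : ℝ) + 1) * μ by positivity)
  have hcost := mult_cost (s := s) hp hμ hμs h0 hell
  obtain ⟨hl, -⟩ := inv_arc_bounds hsm hz
  have hε := mul_nonneg (mul_nonneg (show (0 : ℝ) ≤ 203 / 100 by norm_num) (sub_nonneg.2 hl))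
    (sub_nonneg.2 hv)
  have hs0 := hsm.1.ne'
  rw [← hc] at hcut ⊢
  rw [← he] at hcut hcost ⊢
  set v := 1 / r with hve
  set y := ((p : ℝ) + 1) * s ^ 2 with hy
  set A := 4 * (16 / 25 + 161 / 200 * e) * c - 203 / 100 * P * ((2 * v + 1) / (2 * (v + 2))) -
    e * μ * ((2 * v + 1) / (2 * (v + 2)) + e) with hA
  have hAN : N / (2 * (W + 2)) ≤ A := by
    have hk : (2 * v + 1) / (2 * (v + 2)) ≤ (2 * W + 1) / (2 * (W + 2)) := by
      rw [div_le_div_iff₀ (by linarith) (by linarith)]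
      nlinarith
    have hg : 0 ≤ 203 / 100 * P + μ * e := by rw [hP]; positivity
    have eN : N / (2 * (W + 2)) = 4 * (16 / 25 + 161 / 200 * e) * c - μ * e ^ 2 -
        (203 / 100 * P + μ * e) * ((2 * W + 1) / (2 * (W + 2))) := by
      have : W + 2 ≠ 0 := by linarith
      rw [hN]
      field_simp
    rw [eN, hA]
    linarith [mul_le_mul_of_nonneg_left hk hg]
  have key := high_piece (e := e) (y := y) (c := c) (B := B) (D := dhF p s - μ) (γ := poleF p s)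
    (l := plF y + μ) (R := R) (N := N) (A := A) (v := v) (w := W) (δ := (t - s) / s)
    (by linarith) hc0 he0 hv hvW hAN ?_
  · have e1 : 1 / 2 * (μ * s ^ 2) / c * ((t - s) / s) ^ 2 =
        e * μ * (((p : ℝ) + 1) / (2 * c) * (t - s) ^ 2) := by
      rw [he]; field_simp
    have e2 : e * y * μ / c * ((t - s) / s) = e * μ * (potRate p s * (t - s)) := by
      rw [potRate, hy, he, hc]
      field_simp
    rw [hBd] at key
    rw [← hP]
    linear_combination key + hcut + hcost + hε - e1 - e2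
  · rw [← hL, ← hQ]
    simp only [mul_assoc] at hcond ⊢
    exact hcond

/-- The state with `v ≤ 1`; `Dr` is removed by the lower box. -/
theorem low_state (hp : 98 ≤ p) {ell s t a r q : ℝ} (h : FlatState p ell s t a r q) (h0 : 0 ≤ ell)
    (hell : ell ≤ 6 / ((p : ℝ) + 1)) (hz : s ^ 2 ≤ 2 / 5) {μ Dr R : ℝ} (hμ : 0 ≤ μ)
    (hμs : μ ≤ muSum p s) (hDr : 0 ≤ Dr) (hv : 1 / r ≤ 1) {e c P A B L : ℝ}
    (he : e = 1 / ((p : ℝ) + 1)) (hc : c = 1 - s ^ 2)
    (hP : P = 1 + 1 / 2 * s ^ 2 + 3 / 8 * (s ^ 2) ^ 2 + 5 / 16 * (s ^ 2) ^ 3 +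
      43 / 100 * (s ^ 2) ^ 4)
    (hA : A = 4 * (16 / 25 + 161 / 200 * e) * c - 203 / 200 * P -
      μ * (e * (1 + 13 * e ^ 2) * (1 / 2 + 2 * e)))
    (hA0 : 0 ≤ A) (hBd : B = bF p s - 1 / 2 * (μ * s ^ 2)) (hB : 0 < B)
    (hL : L = B * (plF (((p : ℝ) + 1) * s ^ 2) + μ * (1 + 13 * e ^ 2) +
        8729 / 10000 * (((p : ℝ) + 1) * s ^ 2 * (s ^ 2) ^ 3)) +
      ((p : ℝ) + 1) * s ^ 2 * (dhF p s - μ - Dr) * poleF p s)
    (hK : 0 < B * A - poleF p s ^ 2 * c)
    (hcond : c * L ^ 2 ≤ (4 * B * c * (R - 619 / 100 * Dr) -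
        (((p : ℝ) + 1) * s ^ 2) ^ 2 * (dhF p s - μ - Dr) ^ 2) * (B * A - poleF p s ^ 2 * c)) :
    ell * (wS p (arc s) - massF p s) - e ^ 2 * R ≤
      cancelExpr p (gamC p) (nuC p) ell (fun s t => s + 1 * (s - t)) (fun _ _ => 1 + 1)
        (fun _ _ => -1) (quadPot (potK p) (potB p)) (quadPotS (potK p) (potK' p) (potB p) (potB' p))
        (quadPotT (potK p) (potB p)) s t a r := by
  refine le_trans ?_ (base_le hp h hz)
  have hpp : (98 : ℝ) ≤ p := by exact_mod_cast hp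
  have hsm := h.state.s_mem
  have hc0 : 0 < c := by rw [hc]; linarith
  have he0 : 0 ≤ e := by rw [he]; positivity
  have hm : (0 : ℝ) < (p : ℝ) + 1 := by positivity
  have hv0 : 0 < 1 / r := by have := h.state.rate_pos; positivity
  have hE := exp_cut_le (m := (p : ℝ) + 1) (by linarith) h0 hell
  have hcut := mul_le_mul_of_nonneg_left (cut_low (Eh := 1 + 13 * (1 / ((p : ℝ) + 1)) ^ 2)
    (by omega) h hv hE) (show 0 ≤ 1 / ((p : ℝ) + 1) * μ by positivity)
  have hcost := mult_cost (s := s) hp hμ hμs h0 hell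
  have hexp : Real.exp ell - 1 ≤ 619 / 100 * (1 / ((p : ℝ) + 1)) := by
    have := exp_ell_le (m := (p : ℝ) + 1) (by linarith) h0 hell
    linarith [div_eq_mul_one_div (619 / 100 : ℝ) ((p : ℝ) + 1)]
  have hbox := box_low h h0 hexp
  obtain ⟨-, hh⟩ := inv_arc_bounds hsm hz
  have hε := mul_nonneg (mul_nonneg (show (0 : ℝ) ≤ 203 / 100 by norm_num) (sub_nonneg.2 hh))
    (sub_nonneg.2 hv)
  have hs0 := hsm.1.ne'
  -- the share of the lower box
  have hDr' : -(e ^ 2 * (619 / 100 * Dr)) ≤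
      e * (((p : ℝ) + 1) * s ^ 2) * Dr / c * ((t - s) / s) := by
    rw [← he, ← hc] at hbox
    have hk : 0 ≤ e * (((p : ℝ) + 1) * s ^ 2) * Dr / (c * s) := by
      have := hsm.1
      positivity
    have h1 := mul_le_mul_of_nonneg_left hbox hk
    have h2 : e * (((p : ℝ) + 1) * s ^ 2) * Dr / (c * s) *
        (619 / 100 * e * (c / (s * ((p : ℝ) + 3)))) =
        e * (619 / 100 * Dr) * (e * (((p : ℝ) + 1) / ((p : ℝ) + 3))) := by
      field_simp
    have h3 : e * (((p : ℝ) + 1) / ((p : ℝ) + 3)) ≤ e :=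
      mul_le_of_le_one_right he0 ((div_le_one (by positivity)).2 (by linarith))
    have h4 := mul_le_mul_of_nonneg_left h3 (show 0 ≤ e * (619 / 100 * Dr) by positivity)
    rw [h2] at h1
    have e3 : e * (((p : ℝ) + 1) * s ^ 2) * Dr / c * ((t - s) / s) =
        -(e * (((p : ℝ) + 1) * s ^ 2) * Dr / (c * s) * (s - t)) := by
      field_simp
      ring
    rw [e3]
    linarith
  rw [← hc] at hcut ⊢
  rw [show 2 / ((p : ℝ) + 1) = 2 * (1 / ((p : ℝ) + 1)) by ring] at hcut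
  rw [← he] at hcut hcost ⊢
  set v := 1 / r with hve
  set y := ((p : ℝ) + 1) * s ^ 2 with hy
  have key := low_piece (e := e) (y := y) (c := c) (B := B) (D := dhF p s - μ - Dr)
    (γ := poleF p s)
    (l := plF y + μ * (1 + 13 * e ^ 2) + 8729 / 10000 * (y * (s ^ 2) ^ 3)) (A := A)
    (R := R - 619 / 100 * Dr) (u := v - 1) (v := v) (δ := (t - s) / s) hB hc0 hv0 hv hA0 hK
    (by rw [← hL]; exact hcond)
  have hq : 0 ≤ (v - 1) ^ 2 / v := by positivity
  have hAA : A ≤ 4 * (16 / 25 + 161 / 200 * e) * c -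
      203 / 100 * P * ((2 * v + 1) / (2 * (v + 2))) -
      e * μ * ((1 + 13 * e ^ 2) * ((2 * v + 1) / (2 * (v + 2)) + 2 * e)) := by
    have hk : (2 * v + 1) / (2 * (v + 2)) ≤ 1 / 2 := by
      rw [div_le_div_iff₀ (by linarith) (by norm_num)]
      linarith
    have hg : 0 ≤ 203 / 100 * P + e * μ * (1 + 13 * e ^ 2) := by rw [hP]; positivity
    rw [hA]
    linarith [mul_le_mul_of_nonneg_left hk hg]
  have hAq := mul_le_mul_of_nonneg_right hAA hq
  have e1 : 1 / 2 * (μ * s ^ 2) / c * ((t - s) / s) ^ 2 =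
      e * μ * (((p : ℝ) + 1) / (2 * c) * (t - s) ^ 2) := by
    rw [he]; field_simp
  have e2 : e * y * μ / c * ((t - s) / s) = e * μ * (potRate p s * (t - s)) := by
    rw [potRate, hy, he, hc]
    field_simp
  have e4 : e * (y * (s ^ 2) ^ 3) = (s ^ 2) ^ 4 := by
    rw [hy, he]; field_simp
  rw [hBd] at key
  rw [← hP]
  linear_combination key + hAq + hcut + hcost + hε + hDr' - e1 - e2 + 8729 / 10000 * (v - 1) * e4

end Vale.Agent.P237.Petty.Cor.Mid36
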