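import Vale.Agent.P237.Petty.Cor.Mid36.Bulk

/-!
# P237: bounds of `v = 1 / r` in the cell between three and six over the dimension

Near the centre `v ≤ 1 + e β (y)`; from `m u ^ 2 = 49 / 25` on the hazard gives affine bounds.
-/

namespace Vale.Agent.P237.Petty.Cor.Mid36

open Set
open Ident (half rate)
open MidHigh (hazard_square low_poly_nonneg)
open Vale.Agent.P100.Bernstein

variable {p : ℕ}

/-- An upper bound of `exp ell`. -/
theorem exp_ell_le {m ell : ℝ} (hm : 99 ≤ m) (h0 : 0 ≤ ell) (hell : ell ≤ 6 / m) :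
    Real.exp ell ≤ 1 + 619 / 100 / m := by
  have h1 : 6 / m ≤ 6 / 99 := by gcongr
  have h2 : (0 : ℝ) ≤ 6 / m := div_nonneg (by norm_num) (by linarith)
  refine (Real.exp_le_exp.2 hell).trans ((Real.exp_bound' h2 (by linarith)
    (n := 3) (by norm_num)).trans ?_)
  simp only [Finset.sum_range_succ, Finset.sum_range_zero]
  norm_num
  rw [show (619 : ℝ) / 100 / m = 6 / m + 19 / 600 * (6 / m) by ring]
  nlinarith [mul_le_mul_of_nonneg_left h1 h2]

/-- The bracket of the hazard bound at `m u ^ 2 = 49 / 25`. -/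
theorem hazard_bracket {m u ell : ℝ} (hm : 99 ≤ m) (hu0 : 0 < u) (hu2 : m * u ^ 2 = 49 / 25)
    (hell : ell ≤ 6 / m) :
    (1 - u ^ 2) * (((m + 3) * u ^ 2 + 2) / ((m + 2) * u * ((m + 2) * u ^ 2 + 3))) +
      ell * (7513 / 10000 * u) * (2718 / 1000) ≤
      (5703 / 10000 + 383 / 25 / m) * (5 / 7 * u) := by
  have hm0 : (0 : ℝ) < m := by linarith
  have hv : u ^ 2 = 49 / 25 / m := by rw [← hu2]; field_simp
  have h4 : (1 - u ^ 2) * ((m + 3) * u ^ 2 + 2) ≤
      (5703 / 10000 + 383 / 25 / m - 6 / m * (7513 / 10000 * (2718 / 1000)) * (7 / 5)) *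
        (5 / 7) * ((m + 2) * u ^ 2 * ((m + 2) * u ^ 2 + 3)) := by
    rw [hv]
    obtain ⟨n, hn, rfl⟩ : ∃ n, 0 ≤ n ∧ m = n + 99 := ⟨m - 99, by linarith, by ring⟩
    field_simp
    ring_nf
    nlinarith [mul_nonneg hn hn, mul_nonneg (mul_nonneg hn hn) hn]
  have h5 := mul_le_mul_of_nonneg_right hell
    (show 0 ≤ 7513 / 10000 * u * (2718 / 1000) by positivity)
  have h6 : (1 - u ^ 2) * (((m + 3) * u ^ 2 + 2) / ((m + 2) * u * ((m + 2) * u ^ 2 + 3))) ≤
      (5703 / 10000 + 383 / 25 / m - 6 / m * (7513 / 10000 * (2718 / 1000)) * (7 / 5)) *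
        (5 / 7 * u) := by
    rw [mul_div_assoc', div_le_iff₀ (by positivity)]
    linear_combination h4
  linear_combination h6 + h5

/-- The constant of the hazard bound at the base. -/
theorem base_exp_le {u m : ℝ} (hu2 : m * u ^ 2 = 49 / 25) (hu : u ^ 2 ≤ 49 / 25 / 99) :
    Real.exp (m * u ^ 2 / (2 * (1 - u ^ 2))) ≤ 2718 / 1000 := by
  rw [hu2]
  refine (Real.exp_le_exp.2 (show (49 : ℝ) / 25 / (2 * (1 - u ^ 2)) ≤ 9998 / 10000 from ?_)).trans ?_
  · rw [div_le_iff₀ (by linarith)]; linarith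
  · refine (Real.exp_bound' (by norm_num) (by norm_num) (n := 9) (by norm_num)).trans ?_
    simp only [Finset.sum_range_succ, Finset.sum_range_zero]
    norm_num [Nat.factorial]

/-- An affine bound of `v` by the hazard, from its certificates. -/
theorem inv_rate_le_affine (hp : 98 ≤ p) {ell s t a r q : ℝ} (W : Expr)
    (h : FlatState p ell s t a r q) (h0 : 0 ≤ ell) (hell : ell ≤ 6 / ((p : ℝ) + 1))
    (hy : 49 / 25 ≤ ((p : ℝ) + 1) * s ^ 2) (hw : 0 ≤ (W - xE).eval (pt p s))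
    (hsq : 0 ≤ (xWok W).eval (pt p s)) :
    1 / r ≤ W.eval (pt p s) := by
  obtain ⟨-, -, -, hz⟩ := pt_mem hp s
  simp only [xWok, xE, xC, xZ, pt, Expr.eval_sub, Expr.eval_mul, Expr.eval_add, Expr.eval_pow,
    Expr.eval_frac, Expr.eval_num, Expr.eval_var, Expr.eval_ofNat, List.getD_cons_zero,
    List.getD_cons_succ, hz] at hw hsq
  push_cast at hw hsq
  have hpp : (98 : ℝ) ≤ p := by exact_mod_cast hp
  obtain ⟨w, hwe⟩ : ∃ w, W.eval (pt p s) = w := ⟨_, rfl⟩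
  simp only [pt] at hwe
  rw [pt, hwe]
  rw [hwe] at hw hsq
  obtain ⟨m, hm, hme⟩ : ∃ m : ℝ, 99 ≤ m ∧ (p : ℝ) + 1 = m := ⟨_, by linarith, rfl⟩
  rw [hme] at hell hy hw hsq
  have hs := h.state.s_mem
  have hm0 : (0 : ℝ) < m := by linarith
  have hsm2 : √m ^ 2 = m := Real.sq_sqrt hm0.le
  have hsm : 0 < √m := Real.sqrt_pos.2 hm0
  set u : ℝ := 7 / 5 / √m with hu
  have hu2 : m * u ^ 2 = 49 / 25 := by rw [hu, div_pow, hsm2]; field_simp; ring
  have hu0 : 0 < u := by positivity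
  have hus : u ≤ s := (pow_le_pow_iff_left₀ hu0.le hs.1.le two_ne_zero).1
    (le_of_mul_le_mul_left (by linarith) hm0)
  have hu1 : u < 1 := hus.trans_lt hs.2
  have hu2' : u ^ 2 ≤ 49 / 25 / 99 := by
    rw [show u ^ 2 = 49 / 25 / m by rw [← hu2]; field_simp]
    gcongr
  have hE := exp_ell_le hm h0 hell
  have hC : 1 / arc u ^ (p + 1) ≤ 2718 / 1000 := by
    refine (inv_arc_pow_le ⟨by linarith, hu1⟩).trans ?_
    rw [hme]
    exact base_exp_le hu2 hu2'
  have hL : Lift.circLow p u ≤ 7513 / 10000 * u := by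
    refine (circLow_le_poly ⟨hu0.le, hu1.le⟩).trans (le_of_eq_of_le (mul_comm _ _) ?_)
    rw [hme, hu2]
    exact mul_le_mul_of_nonneg_right (by norm_num) hu0.le
  refine (h.inv_rate_le_hazard h0 ⟨hu0, hus⟩ hE hL hC).trans ?_
  rw [show (p : ℝ) + 3 = m + 2 by linarith, show (p : ℝ) + 4 = m + 3 by linarith]
  have hE0 : 0 ≤ 1 + 619 / 100 / m := by positivity
  rw [mul_max_of_nonneg _ _ hE0, mul_one]
  rw [show 619 / 100 * (1 / m) = 619 / 100 / m by ring] at hw hsq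
  rw [show 383 / 25 * (1 / m) = 383 / 25 / m by ring] at hsq
  refine max_le (by linarith) ?_
  have hc : 0 < 1 - s ^ 2 := by nlinarith [hs.1, hs.2]
  have key := hazard_bracket hm hu0 hu2 hell
  rw [show (5 : ℝ) / 7 * u = 1 / √m by rw [hu]; ring, mul_one_div] at key
  have hA : 0 ≤ ((m + 2) * s ^ 2 + 1) / (s * (1 - s ^ 2)) :=
    div_nonneg (by positivity) (mul_nonneg hs.1.le hc.le)
  exact (mul_le_mul_of_nonneg_left (mul_le_mul_of_nonneg_left key hA) hE0).trans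
    (hazard_square hm0 hs.1 hc (by linarith) hE0 (by positivity) (by linarith))

/-- The reciprocal of the power near the centre. -/
theorem exp_low_le {y z : ℝ} (hy0 : 0 ≤ y) (hy : y ≤ 49 / 25) (hz : z ≤ 49 / 25 / 99) :
    Real.exp (y / (2 * (1 - z))) ≤
      (1 + 2551 / 10000 * y + 1 / 2 * (2551 / 10000 * y) ^ 2 +
        1 / 6 * (2551 / 10000 * y) ^ 3 + 5 / 96 * (2551 / 10000 * y) ^ 4) ^ 2 := by
  refine (Real.exp_le_exp.2 (show y / (2 * (1 - z)) ≤
    2551 / 10000 * y + 2551 / 10000 * y from ?_)).trans ?_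
  · rw [div_le_iff₀ (by linarith)]
    nlinarith [mul_nonneg hy0 (sub_nonneg.2 hz)]
  · rw [Real.exp_add, ← sq]
    refine pow_le_pow_left₀ (Real.exp_pos _).le ((Real.exp_bound' (by positivity) (by linarith)
      (n := 4) (by norm_num)).trans (le_of_eq ?_)) _
    simp only [Finset.sum_range_succ, Finset.sum_range_zero, Nat.factorial]
    push_cast
    ring

/-- The bound near the centre, over one denominator. -/
theorem low_combine {m s ell w E U C : ℝ} (hm : 0 < m) (hs : 0 < s) (hc : 0 < 1 - s ^ 2)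
    (hell : ell ≤ 6 / m) (hE : 0 ≤ E) (hU : 0 ≤ U) (hC : 0 ≤ C)
    (hcert : E * ((1 - s ^ 2) + 6 * (1 / m) * (C * U) * (m * s ^ 2 + 2 * s ^ 2 + 1)) ≤
      w * (1 - s ^ 2)) :
    E * (1 + ell * (s * U) * C * (((m + 2) * s ^ 2 + 1) / (s * (1 - s ^ 2)))) ≤ w := by
  rw [show E * (1 + ell * (s * U) * C * (((m + 2) * s ^ 2 + 1) / (s * (1 - s ^ 2)))) =
    E * ((1 - s ^ 2) + ell * (C * U) * (m * s ^ 2 + 2 * s ^ 2 + 1)) / (1 - s ^ 2) by
      field_simp, div_le_iff₀ hc]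
  refine le_trans ?_ hcert
  gcongr
  rwa [mul_one_div]

/-- Near the centre the bound of `v` is `1 + e β (y)`. -/
theorem inv_rate_le_low (hp : 98 ≤ p) {ell s t a r q : ℝ} (h : FlatState p ell s t a r q)
    (h0 : 0 ≤ ell) (hell : ell ≤ 6 / ((p : ℝ) + 1)) (hy : ((p : ℝ) + 1) * s ^ 2 ≤ 49 / 25) :
    1 / r ≤ xW0.eval (pt p s) := by
  obtain ⟨hy0, he, he', hz⟩ := pt_mem hp s
  have hc0 := onBox_nonneg certV (y := ((p : ℝ) + 1) * s ^ 2) (e := 1 / ((p : ℝ) + 1))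
    (40 / (((p : ℝ) + 1) * s ^ 2)) (by simpa using hy0) (by push_cast; linarith) he.le he'
  simp only [xVok, xE, xC, xZ, Expr.eval_sub, Expr.eval_mul, Expr.eval_add, Expr.eval_pow,
    Expr.eval_frac, Expr.eval_num, Expr.eval_var, Expr.eval_ofNat, List.getD_cons_zero,
    List.getD_cons_succ, hz] at hc0
  push_cast at hc0
  have hm : (99 : ℝ) ≤ (p : ℝ) + 1 := by
    have : (98 : ℝ) ≤ p := by exact_mod_cast hp
    linarith
  have hs := h.state.s_mem
  have hc : 0 < 1 - s ^ 2 := by nlinarith [hs.1, hs.2]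
  have hz2 : s ^ 2 ≤ 49 / 25 / 99 := by
    rw [le_div_iff₀ (by norm_num)]
    nlinarith [mul_le_mul_of_nonneg_right hm (sq_nonneg s)]
  refine (h.inv_rate_le_pow h0 (exp_ell_le hm h0 hell) (circLow_le_poly (Ioo_subset_Icc_self hs))
    ((inv_arc_pow_le ⟨by linarith [hs.1], hs.2⟩).trans (exp_low_le hy0 hy hz2))).trans ?_
  rw [show (p : ℝ) + 3 = (p : ℝ) + 1 + 2 by ring]
  refine low_combine (by linarith) hs.1 hc hell (by positivity) ?_ (sq_nonneg _) ?_
  · exact low_poly_nonneg (by linarith)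
  · simp only [pt] at hc0 ⊢
    obtain ⟨y, hye⟩ : ∃ y, ((p : ℝ) + 1) * s ^ 2 = y := ⟨_, rfl⟩
    obtain ⟨W, hW⟩ : ∃ W, xW0.eval [((p : ℝ) + 1) * s ^ 2, 1 / ((p : ℝ) + 1),
        40 / (((p : ℝ) + 1) * s ^ 2)] = W := ⟨_, rfl⟩
    rw [hW] at hc0 ⊢
    rw [hye] at hc0 ⊢
    rw [div_eq_mul_one_div (619 / 100 : ℝ) ((p : ℝ) + 1)]
    generalize 1 / ((p : ℝ) + 1) = e at hc0 ⊢
    linear_combination hc0

end Vale.Agent.P237.Petty.Cor.Mid36
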